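/-
PolyLib, layer 1: a structured imperative language `Cmd` over finitely many stacks of bits, with a
big-step semantics counting steps, and its implementation by a `Turing.FinTM2`.
Result: `exists_computable`: a command running from the input store to the output store in
polynomial time gives `Turing.TM2ComputableInPolyTime`.  (helper17)
-/
import Mathlib

set_option autoImplicit false

namespace Crest.Agent.PolyLib

/-- The registers (stacks). `I`: input, `O`: output, `M`: main, the others auxiliary. -/
inductive R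
  | I | O | M | A | B | U | F | G
  deriving DecidableEq

instance : Fintype R :=
  ⟨⟨[R.I, R.O, R.M, R.A, R.B, R.U, R.F, R.G], by decide⟩, by intro x; cases x <;> decide⟩

/-- The contents of the stacks. -/
structure Mem where
  i : List Bool
  o : List Bool
  m : List Bool
  a : List Bool
  b : List Bool
  u : List Bool
  f : List Bool
  g : List Bool

namespace Mem

/-- The contents of a register. -/
def get (S : Mem) : R → List Bool
  | .I => S.i
  | .O => S.o
  | .M => S.m
  | .A => S.a
  | .B => S.b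
  | .U => S.u
  | .F => S.f
  | .G => S.g

/-- Replace the contents of a register. -/
def set (S : Mem) : R → List Bool → Mem
  | .I, l => { S with i := l }
  | .O, l => { S with o := l }
  | .M, l => { S with m := l }
  | .A, l => { S with a := l }
  | .B, l => { S with b := l }
  | .U, l => { S with u := l }
  | .F, l => { S with f := l }
  | .G, l => { S with g := l }

lemma get_set (S : Mem) (r : R) (l : List Bool) :
    (S.set r l).get = Function.update S.get r l := by
  funext k
  cases r <;> cases k <;> simp [get, set, Function.update]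

end Mem

/-- Commands. `pop r e c0 c1`: pop `r`, continue with `e` if `r` was empty, with `c0`, `c1` according
to the popped bit. `loop r c0 c1`: repeat popping `r` and running `c0`, `c1` according to the bit,
until `r` is empty. -/
inductive Cmd
  | skip
  | push (r : R) (b : Bool)
  | pop (r : R) (e c0 c1 : Cmd)
  | seq (c d : Cmd)
  | loop (r : R) (c0 c1 : Cmd)

/-- Big-step semantics with the exact number of machine steps. -/
inductive Big : Cmd → Mem → Mem → ℕ → Prop
  | skip (S : Mem) : Big .skip S S 1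
  | push (S : Mem) (r : R) (b : Bool) : Big (.push r b) S (S.set r (b :: S.get r)) 1
  | popE {S S' : Mem} {r : R} {e c0 c1 : Cmd} {t : ℕ} (h : S.get r = []) (hb : Big e S S' t) :
      Big (.pop r e c0 c1) S S' (t + 1)
  | pop0 {S S' : Mem} {r : R} {e c0 c1 : Cmd} {t : ℕ} {l : List Bool} (h : S.get r = false :: l)
      (hb : Big c0 (S.set r l) S' t) : Big (.pop r e c0 c1) S S' (t + 1)
  | pop1 {S S' : Mem} {r : R} {e c0 c1 : Cmd} {t : ℕ} {l : List Bool} (h : S.get r = true :: l)
      (hb : Big c1 (S.set r l) S' t) : Big (.pop r e c0 c1) S S' (t + 1)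
  | seq {S S1 S2 : Mem} {c d : Cmd} {t1 t2 : ℕ} (h1 : Big c S S1 t1) (h2 : Big d S1 S2 t2) :
      Big (.seq c d) S S2 (t1 + t2)
  | loopE {S : Mem} {r : R} {c0 c1 : Cmd} (h : S.get r = []) : Big (.loop r c0 c1) S S 1
  | loop0 {S S1 S2 : Mem} {r : R} {c0 c1 : Cmd} {t1 t2 : ℕ} {l : List Bool}
      (h : S.get r = false :: l) (hb : Big c0 (S.set r l) S1 t1) (hl : Big (.loop r c0 c1) S1 S2 t2) :
      Big (.loop r c0 c1) S S2 (t1 + t2 + 1)
  | loop1 {S S1 S2 : Mem} {r : R} {c0 c1 : Cmd} {t1 t2 : ℕ} {l : List Bool}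
      (h : S.get r = true :: l) (hb : Big c1 (S.set r l) S1 t1) (hl : Big (.loop r c0 c1) S1 S2 t2) :
      Big (.loop r c0 c1) S S2 (t1 + t2 + 1)

/-! ### The machine -/

/-- The stack alphabet. -/
abbrev Gam : R → Type := fun _ => Bool

/-- The internal state: the last popped symbol. -/
abbrev Sg := Option Bool

/-- Statements of the machine. -/
abbrev St (Λ : Type) := Turing.TM2.Stmt Gam Λ Sg

/-- Dispatch on the last popped symbol. -/
def disp {Λ : Type} (le l0 l1 : Λ) : Sg → Λ
  | none => le
  | some false => l0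
  | some true => l1

/-- `m` implements the command `c` from the label `en` to the label `ex`. -/
def Impl {Λ : Type} (m : Λ → St Λ) : Cmd → Λ → Λ → Prop
  | .skip, en, ex => m en = .goto (fun _ => ex)
  | .push r b, en, ex => m en = .push r (fun _ => b) (.goto fun _ => ex)
  | .pop r e c0 c1, en, ex => ∃ le l0 l1,
      m en = .pop r (fun _ o => o) (.goto (disp le l0 l1)) ∧
      Impl m e le ex ∧ Impl m c0 l0 ex ∧ Impl m c1 l1 ex
  | .seq c d, en, ex => ∃ l, Impl m c en l ∧ Impl m d l ex
  | .loop r c0 c1, en, ex => ∃ l0 l1,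
      m en = .pop r (fun _ o => o) (.goto (disp ex l0 l1)) ∧
      Impl m c0 l0 en ∧ Impl m c1 l1 en

/-- The configuration at label `l`. -/
def cfg {Λ : Type} (l : Λ) (v : Sg) (S : Mem) : Turing.TM2.Cfg Gam Λ Sg :=
  ⟨some l, v, S.get⟩

/-- `n` steps of the machine. -/
def Reach {Λ : Type} (m : Λ → St Λ) (n : ℕ) (x y : Turing.TM2.Cfg Gam Λ Sg) : Prop :=
  (flip bind (Turing.TM2.step m))^[n] (some x) = some y

lemma Reach.trans {Λ : Type} {m : Λ → St Λ} {n k : ℕ} {x y z : Turing.TM2.Cfg Gam Λ Sg}
    (h1 : Reach m n x y) (h2 : Reach m k y z) : Reach m (n + k) x z := by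
  unfold Reach at *
  rw [Nat.add_comm, Function.iterate_add_apply, h1, h2]

lemma Reach.one {Λ : Type} {m : Λ → St Λ} {x y : Turing.TM2.Cfg Gam Λ Sg}
    (h : Turing.TM2.step m x = some y) : Reach m 1 x y := by
  unfold Reach
  simpa [flip] using h

lemma Reach.zero {Λ : Type} {m : Λ → St Λ} (x : Turing.TM2.Cfg Gam Λ Sg) : Reach m 0 x x := rfl

lemma step_pop_goto {Λ : Type} {m : Λ → St Λ} {en : Λ} {r : R} {le l0 l1 : Λ} (v : Sg) (S : Mem)
    (h : m en = .pop r (fun _ o => o) (.goto (disp le l0 l1))) :
    Turing.TM2.step m (cfg en v S) =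
      some ⟨some (disp le l0 l1 (S.get r).head?), (S.get r).head?,
        Function.update S.get r (S.get r).tail⟩ := by
  simp [cfg, Turing.TM2.step, h, Turing.TM2.stepAux]

/-- Correctness of the implementation. -/
theorem Impl.big {Λ : Type} {m : Λ → St Λ} {c : Cmd} {S S' : Mem} {t : ℕ} (hb : Big c S S' t) :
    ∀ {en ex : Λ}, Impl m c en ex → ∀ v, ∃ v', Reach m t (cfg en v S) (cfg ex v' S') := by
  induction hb with
  | skip S =>
    intro en ex h v
    refine ⟨v, Reach.one ?_⟩
    simp only [Impl] at h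
    simp [cfg, Turing.TM2.step, h, Turing.TM2.stepAux]
  | push S r b =>
    intro en ex h v
    refine ⟨v, Reach.one ?_⟩
    simp only [Impl] at h
    simp [cfg, Turing.TM2.step, h, Turing.TM2.stepAux, Mem.get_set]
  | @popE S S' r e c0 c1 t h0 hb ih =>
    intro en ex h v
    obtain ⟨le, l0, l1, hm, he, -, -⟩ := h
    obtain ⟨v', hv'⟩ := ih he none
    refine ⟨v', ?_⟩
    have h1 : Reach m 1 (cfg en v S) (cfg le none S) := by
      apply Reach.one
      rw [step_pop_goto v S hm, h0]
      simp only [List.head?_nil, List.tail_nil, disp, cfg]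
      congr 2
      rw [← h0]
      exact Function.update_eq_self r S.get
    simpa [Nat.add_comm] using h1.trans hv'
  | @pop0 S S' r e c0 c1 t l h0 hb ih =>
    intro en ex h v
    obtain ⟨le, l0, l1, hm, -, he, -⟩ := h
    obtain ⟨v', hv'⟩ := ih he (some false)
    refine ⟨v', ?_⟩
    have h1 : Reach m 1 (cfg en v S) (cfg l0 (some false) (S.set r l)) := by
      apply Reach.one
      rw [step_pop_goto v S hm, h0]
      simp only [List.head?_cons, List.tail_cons, disp, cfg, Mem.get_set]
    simpa [Nat.add_comm] using h1.trans hv'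
  | @pop1 S S' r e c0 c1 t l h0 hb ih =>
    intro en ex h v
    obtain ⟨le, l0, l1, hm, -, -, he⟩ := h
    obtain ⟨v', hv'⟩ := ih he (some true)
    refine ⟨v', ?_⟩
    have h1 : Reach m 1 (cfg en v S) (cfg l1 (some true) (S.set r l)) := by
      apply Reach.one
      rw [step_pop_goto v S hm, h0]
      simp only [List.head?_cons, List.tail_cons, disp, cfg, Mem.get_set]
    simpa [Nat.add_comm] using h1.trans hv'
  | @seq S S1 S2 c d t1 t2 h1 h2 ih1 ih2 =>
    intro en ex h v
    obtain ⟨l, hc, hd⟩ := h
    obtain ⟨v1, h3⟩ := ih1 hc v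
    obtain ⟨v2, h4⟩ := ih2 hd v1
    exact ⟨v2, h3.trans h4⟩
  | @loopE S r c0 c1 h0 =>
    intro en ex h v
    obtain ⟨l0, l1, hm, -, -⟩ := h
    refine ⟨none, Reach.one ?_⟩
    rw [step_pop_goto v S hm, h0]
    simp only [List.head?_nil, List.tail_nil, disp, cfg]
    congr 2
    rw [← h0]
    exact Function.update_eq_self r S.get
  | @loop0 S S1 S2 r c0 c1 t1 t2 l h0 hb hl ih1 ih2 =>
    intro en ex h v
    have h' := h
    obtain ⟨l0, l1, hm, hc0, -⟩ := h
    obtain ⟨v1, h3⟩ := ih1 hc0 (some false)
    obtain ⟨v2, h4⟩ := ih2 h' v1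
    refine ⟨v2, ?_⟩
    have h1 : Reach m 1 (cfg en v S) (cfg l0 (some false) (S.set r l)) := by
      apply Reach.one
      rw [step_pop_goto v S hm, h0]
      simp only [List.head?_cons, List.tail_cons, disp, cfg, Mem.get_set]
    have := (h1.trans h3).trans h4
    convert this using 1
    omega
  | @loop1 S S1 S2 r c0 c1 t1 t2 l h0 hb hl ih1 ih2 =>
    intro en ex h v
    have h' := h
    obtain ⟨l0, l1, hm, -, hc0⟩ := h
    obtain ⟨v1, h3⟩ := ih1 hc0 (some true)
    obtain ⟨v2, h4⟩ := ih2 h' v1
    refine ⟨v2, ?_⟩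
    have h1 : Reach m 1 (cfg en v S) (cfg l1 (some true) (S.set r l)) := by
      apply Reach.one
      rw [step_pop_goto v S hm, h0]
      simp only [List.head?_cons, List.tail_cons, disp, cfg, Mem.get_set]
    have := (h1.trans h3).trans h4
    convert this using 1
    omega

/-! ### Code generation -/

/-- Labels of a command. -/
def Lbl : Cmd → Type
  | .skip => Unit
  | .push _ _ => Unit
  | .pop _ e c0 c1 => Unit ⊕ (Lbl e ⊕ (Lbl c0 ⊕ Lbl c1))
  | .seq c d => Lbl c ⊕ Lbl d
  | .loop _ c0 c1 => Unit ⊕ (Lbl c0 ⊕ Lbl c1)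

/-- The labels are finite. -/
@[instance_reducible] def Lbl.fintype : (c : Cmd) → Fintype (Lbl c)
  | .skip => inferInstanceAs (Fintype Unit)
  | .push _ _ => inferInstanceAs (Fintype Unit)
  | .pop _ e c0 c1 =>
    have := Lbl.fintype e
    have := Lbl.fintype c0
    have := Lbl.fintype c1
    inferInstanceAs (Fintype (Unit ⊕ (Lbl e ⊕ (Lbl c0 ⊕ Lbl c1))))
  | .seq c d =>
    have := Lbl.fintype c
    have := Lbl.fintype d
    inferInstanceAs (Fintype (Lbl c ⊕ Lbl d))
  | .loop _ c0 c1 =>
    have := Lbl.fintype c0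
    have := Lbl.fintype c1
    inferInstanceAs (Fintype (Unit ⊕ (Lbl c0 ⊕ Lbl c1)))

/-- The entry label of a command. -/
def entry : (c : Cmd) → Lbl c
  | .skip => ()
  | .push _ _ => ()
  | .pop _ _ _ _ => Sum.inl ()
  | .seq c _ => Sum.inl (entry c)
  | .loop _ _ _ => Sum.inl ()

/-- The code of a command, with an embedding of its labels and an exit label. -/
def gen {Λ : Type} : (c : Cmd) → (Lbl c → Λ) → Λ → Lbl c → St Λ
  | .skip, _, ex, _ => .goto fun _ => ex
  | .push r b, _, ex, _ => .push r (fun _ => b) (.goto fun _ => ex)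
  | .pop r e c0 c1, emb, ex, l =>
    match l with
    | Sum.inl _ => .pop r (fun _ o => o) (.goto (disp (emb (Sum.inr (Sum.inl (entry e))))
        (emb (Sum.inr (Sum.inr (Sum.inl (entry c0)))))
        (emb (Sum.inr (Sum.inr (Sum.inr (entry c1)))))))
    | Sum.inr (Sum.inl l) => gen e (fun x => emb (Sum.inr (Sum.inl x))) ex l
    | Sum.inr (Sum.inr (Sum.inl l)) => gen c0 (fun x => emb (Sum.inr (Sum.inr (Sum.inl x)))) ex l
    | Sum.inr (Sum.inr (Sum.inr l)) => gen c1 (fun x => emb (Sum.inr (Sum.inr (Sum.inr x)))) ex l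
  | .seq c d, emb, ex, l =>
    match l with
    | Sum.inl l => gen c (fun x => emb (Sum.inl x)) (emb (Sum.inr (entry d))) l
    | Sum.inr l => gen d (fun x => emb (Sum.inr x)) ex l
  | .loop r c0 c1, emb, ex, l =>
    match l with
    | Sum.inl _ => .pop r (fun _ o => o) (.goto (disp ex
        (emb (Sum.inr (Sum.inl (entry c0))))
        (emb (Sum.inr (Sum.inr (entry c1))))))
    | Sum.inr (Sum.inl l) => gen c0 (fun x => emb (Sum.inr (Sum.inl x))) (emb (Sum.inl ())) l
    | Sum.inr (Sum.inr l) => gen c1 (fun x => emb (Sum.inr (Sum.inr x))) (emb (Sum.inl ())) l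

/-- The generated code implements the command. -/
theorem gen_impl {Λ : Type} (m : Λ → St Λ) :
    ∀ (c : Cmd) (emb : Lbl c → Λ) (ex : Λ), (∀ l, m (emb l) = gen c emb ex l) →
      Impl m c (emb (entry c)) ex
  | .skip, emb, ex, h => by
    simp only [Impl]; exact h _
  | .push r b, emb, ex, h => by
    simp only [Impl]; exact h _
  | .pop r e c0 c1, emb, ex, h => by
    refine ⟨_, _, _, h (Sum.inl ()), ?_, ?_, ?_⟩
    · exact gen_impl m e (fun x => emb (Sum.inr (Sum.inl x))) ex fun l => h (Sum.inr (Sum.inl l))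
    · exact gen_impl m c0 (fun x => emb (Sum.inr (Sum.inr (Sum.inl x)))) ex
        fun l => h (Sum.inr (Sum.inr (Sum.inl l)))
    · exact gen_impl m c1 (fun x => emb (Sum.inr (Sum.inr (Sum.inr x)))) ex
        fun l => h (Sum.inr (Sum.inr (Sum.inr l)))
  | .seq c d, emb, ex, h => by
    refine ⟨emb (Sum.inr (entry d)), ?_, ?_⟩
    · exact gen_impl m c (fun x => emb (Sum.inl x)) _ fun l => h (Sum.inl l)
    · exact gen_impl m d (fun x => emb (Sum.inr x)) ex fun l => h (Sum.inr l)
  | .loop r c0 c1, emb, ex, h => by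
    refine ⟨_, _, h (Sum.inl ()), ?_, ?_⟩
    · exact gen_impl m c0 (fun x => emb (Sum.inr (Sum.inl x))) _ fun l => h (Sum.inr (Sum.inl l))
    · exact gen_impl m c1 (fun x => emb (Sum.inr (Sum.inr x))) _ fun l => h (Sum.inr (Sum.inr l))

/-- The labels of the machine of a program. -/
abbrev TLbl (P : Cmd) := Lbl P ⊕ Unit

/-- The code of the machine of a program: after the program, reset the state and halt. -/
def tcode (P : Cmd) : TLbl P → St (TLbl P)
  | Sum.inl l => gen P Sum.inl (Sum.inr ()) l
  | Sum.inr _ => .load (fun _ => none) .halt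

/-- The machine of a program. -/
def tm (P : Cmd) : Turing.FinTM2 :=
  letI := Lbl.fintype P
  { K := R
    k₀ := R.I
    k₁ := R.O
    Γ := Gam
    Λ := TLbl P
    main := Sum.inl (entry P)
    σ := Sg
    initialState := none
    m := tcode P }

/-- The input store. -/
def inMem (l : List Bool) : Mem := ⟨l, [], [], [], [], [], [], []⟩

/-- The output store. -/
def outMem (l : List Bool) : Mem := ⟨[], l, [], [], [], [], [], []⟩

lemma initList_eq (P : Cmd) (l : List Bool) :
    Turing.initList (tm P) l = cfg (Sum.inl (entry P)) none (inMem l) := by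
  unfold Turing.initList cfg
  congr 1
  funext k
  cases k <;> rfl

lemma haltList_eq (P : Cmd) (l : List Bool) :
    Turing.haltList (tm P) l = ⟨none, none, (outMem l).get⟩ := by
  unfold Turing.haltList
  congr 1
  funext k
  cases k <;> rfl

/-- A program running from `inMem x` to `outMem (f x)` in polynomial time gives a machine. -/
theorem polyTimeComputable (P : Cmd) (f : List Bool → List Bool) (p : Polynomial ℕ)
    (h : ∀ x, ∃ t, t ≤ p.eval x.length ∧ Big P (inMem x) (outMem (f x)) t) :
    Nonempty (Turing.TM2ComputableInPolyTime (Computability.encodingList Bool).encode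
      (Computability.encodingList Bool).encode f) := by
  refine ⟨⟨⟨tm P, Equiv.refl _, Equiv.refl _⟩, p + 1, fun x => Classical.choice ?_⟩⟩
  obtain ⟨t, ht, hb⟩ := h x
  have him : Impl (tcode P) P (Sum.inl (entry P)) (Sum.inr ()) :=
    gen_impl (tcode P) P Sum.inl (Sum.inr ()) (fun _ => rfl)
  obtain ⟨v, hv⟩ := Impl.big hb him none
  have hlast : Reach (tcode P) 1 (cfg (Sum.inr ()) v (outMem (f x)))
      ⟨none, none, (outMem (f x)).get⟩ := by
    apply Reach.one
    simp [cfg, Turing.TM2.step, tcode, Turing.TM2.stepAux]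
  have hall := hv.trans hlast
  refine ⟨⟨⟨t + 1, ?_⟩, ?_⟩⟩
  · have hx : (List.map (Equiv.refl ((tm P).Γ (tm P).k₀)).invFun x : List ((tm P).Γ (tm P).k₀)) = x :=
      List.map_id _
    have hy : (List.map (Equiv.refl ((tm P).Γ (tm P).k₁)).invFun (f x) : List ((tm P).Γ (tm P).k₁)) =
        f x := List.map_id _
    show (flip bind (Turing.TM2.step (tcode P)))^[t + 1] (some (Turing.initList (tm P)
        (List.map (Equiv.refl ((tm P).Γ (tm P).k₀)).invFun x))) =
      Option.map (Turing.haltList (tm P))
        (some (List.map (Equiv.refl ((tm P).Γ (tm P).k₁)).invFun (f x)))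
    rw [hx, hy, initList_eq]
    show _ = some (Turing.haltList (tm P) (f x))
    rw [haltList_eq]
    exact hall
  · show t + 1 ≤ (p + 1).eval _
    simp only [Polynomial.eval_add, Polynomial.eval_one]
    have : (Computability.encodingList Bool).encode x = x := rfl
    rw [this]
    omega

end Crest.Agent.PolyLib
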