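/-
PolyLib, layer 2: binary trees serialised on the main stack, and the macros on them
(`moveMA`, `dropM`, `dupC`, `swapC`, `fstC`, `sndC`, `constC`, `pairC`, `iteC`, `whileC`) with exact
specifications.  Programs work in stack discipline: all auxiliary stacks are empty between macros.
-/
import Crest.Agent.PolyLib.Cmd

set_option autoImplicit false

namespace Crest.Agent.PolyLib

/-- Binary trees. -/
inductive V
  | nil
  | cons (a b : V)

/-- Serialisation (prefix code). -/
def ser : V → List Bool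
  | .nil => [false]
  | .cons a b => true :: (ser a ++ ser b)

/-- The size of a tree. -/
def size (x : V) : ℕ := (ser x).length

@[simp] lemma size_nil : size .nil = 1 := rfl
@[simp] lemma size_cons (a b : V) : size (.cons a b) = size a + size b + 1 := by
  show (true :: (ser a ++ ser b)).length = _
  simp [size]

lemma size_pos (x : V) : 1 ≤ size x := by
  cases x <;> simp

lemma Big.cast {c : Cmd} {S S' : Mem} {t t' : ℕ} (h : Big c S S' t) (e : t = t') : Big c S S' t' :=
  e ▸ h

/-- Time of a scan of `x`. -/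
def mvC : V → ℕ
  | .nil => 3
  | .cons a b => 5 + mvC a + mvC b

lemma mvC_le (x : V) : mvC x + 1 ≤ 4 * size x := by
  induction x with
  | nil => simp [mvC]
  | cons a b ha hb => simp only [mvC, size_cons]; omega

/-- The body of a scan of the top value of `M`, with actions on each bit. -/
def scanB (a0 a1 : Cmd) : Cmd :=
  .pop .M .skip a0 (.seq a1 (.seq (.push .U true) (.push .U true)))

/-- The loop of a scan. -/
def scanL (a0 a1 : Cmd) : Cmd := .loop .U (scanB a0 a1) (scanB a0 a1)

/-- Scan the top value of `M`, popping it. -/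
def scan (a0 a1 : Cmd) : Cmd := .seq (.push .U true) (scanL a0 a1)

/-- Move the top value of `M` to `A`, reversed. -/
def moveMA : Cmd := scan (.push .A false) (.push .A true)
/-- Move the top value of `M` to `B`, reversed. -/
def moveMB : Cmd := scan (.push .B false) (.push .B true)
/-- Drop the top value of `M`. -/
def dropM : Cmd := scan .skip .skip

section
variable {i o b u f g a : List Bool}

lemma moveMA_aux (i o b f g : List Bool) (x : V) : ∀ (ρ a u : List Bool) (S' : Mem) (t' : ℕ),
    Big (scanL (.push .A false) (.push .A true)) ⟨i, o, ρ, (ser x).reverse ++ a, b, u, f, g⟩ S' t' →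
    Big (scanL (.push .A false) (.push .A true)) ⟨i, o, ser x ++ ρ, a, b, true :: u, f, g⟩ S'
      (t' + mvC x) := by
  induction x with
  | nil =>
    intro ρ a u S' t' h
    simp only [ser, List.reverse_singleton, List.singleton_append] at h
    refine Big.cast (Big.loop1 (l := u) rfl (t1 := 2) (Big.pop0 (l := ρ) rfl (Big.push _ _ _)) h) ?_
    simp only [mvC]; omega
  | cons p q hp hq =>
    intro ρ a u S' t' h
    have e : (ser (.cons p q)).reverse ++ a = (ser q).reverse ++ ((ser p).reverse ++ true :: a) := by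
      simp [ser, List.reverse_append, List.append_assoc]
    rw [e] at h
    have h1 := hq ρ _ u S' t' h
    have h2 := hp (ser q ++ ρ) (true :: a) (true :: u) S' _ h1
    have e2 : ser (.cons p q) ++ ρ = true :: (ser p ++ (ser q ++ ρ)) := by
      simp [ser, List.append_assoc]
    rw [e2]
    refine Big.cast (Big.loop1 (l := u) rfl (t1 := 4) (Big.pop1 (l := ser p ++ (ser q ++ ρ)) rfl
      (t := 3) (Big.seq (t1 := 1) (t2 := 2) (Big.push _ _ _) (Big.seq (t1 := 1) (t2 := 1)
        (Big.push _ _ _) (Big.push _ _ _)))) h2) ?_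
    simp only [mvC]; omega

lemma moveMB_aux (i o a f g : List Bool) (x : V) : ∀ (ρ b u : List Bool) (S' : Mem) (t' : ℕ),
    Big (scanL (.push .B false) (.push .B true)) ⟨i, o, ρ, a, (ser x).reverse ++ b, u, f, g⟩ S' t' →
    Big (scanL (.push .B false) (.push .B true)) ⟨i, o, ser x ++ ρ, a, b, true :: u, f, g⟩ S'
      (t' + mvC x) := by
  induction x with
  | nil =>
    intro ρ b u S' t' h
    simp only [ser, List.reverse_singleton, List.singleton_append] at h
    refine Big.cast (Big.loop1 (l := u) rfl (t1 := 2) (Big.pop0 (l := ρ) rfl (Big.push _ _ _)) h) ?_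
    simp only [mvC]; omega
  | cons p q hp hq =>
    intro ρ b u S' t' h
    have e : (ser (.cons p q)).reverse ++ b = (ser q).reverse ++ ((ser p).reverse ++ true :: b) := by
      simp [ser, List.reverse_append, List.append_assoc]
    rw [e] at h
    have h1 := hq ρ _ u S' t' h
    have h2 := hp (ser q ++ ρ) (true :: b) (true :: u) S' _ h1
    have e2 : ser (.cons p q) ++ ρ = true :: (ser p ++ (ser q ++ ρ)) := by
      simp [ser, List.append_assoc]
    rw [e2]
    refine Big.cast (Big.loop1 (l := u) rfl (t1 := 4) (Big.pop1 (l := ser p ++ (ser q ++ ρ)) rfl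
      (t := 3) (Big.seq (t1 := 1) (t2 := 2) (Big.push _ _ _) (Big.seq (t1 := 1) (t2 := 1)
        (Big.push _ _ _) (Big.push _ _ _)))) h2) ?_
    simp only [mvC]; omega

lemma dropM_aux (i o a b f g : List Bool) (x : V) : ∀ (ρ u : List Bool) (S' : Mem) (t' : ℕ),
    Big (scanL .skip .skip) ⟨i, o, ρ, a, b, u, f, g⟩ S' t' →
    Big (scanL .skip .skip) ⟨i, o, ser x ++ ρ, a, b, true :: u, f, g⟩ S' (t' + mvC x) := by
  induction x with
  | nil =>
    intro ρ u S' t' h
    refine Big.cast (Big.loop1 (l := u) rfl (t1 := 2) (Big.pop0 (l := ρ) rfl (Big.skip _)) h) ?_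
    simp only [mvC]; omega
  | cons p q hp hq =>
    intro ρ u S' t' h
    have h1 := hq ρ u S' t' h
    have h2 := hp (ser q ++ ρ) (true :: u) S' _ h1
    have e2 : ser (.cons p q) ++ ρ = true :: (ser p ++ (ser q ++ ρ)) := by
      simp [ser, List.append_assoc]
    rw [e2]
    refine Big.cast (Big.loop1 (l := u) rfl (t1 := 4) (Big.pop1 (l := ser p ++ (ser q ++ ρ)) rfl
      (t := 3) (Big.seq (t1 := 1) (t2 := 2) (Big.skip _) (Big.seq (t1 := 1) (t2 := 1)
        (Big.push _ _ _) (Big.push _ _ _)))) h2) ?_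
    simp only [mvC]; omega

/-- `moveMA`. -/
lemma moveMA_spec (i o a b f g ρ : List Bool) (x : V) :
    Big moveMA ⟨i, o, ser x ++ ρ, a, b, [], f, g⟩ ⟨i, o, ρ, (ser x).reverse ++ a, b, [], f, g⟩
      (mvC x + 2) := by
  have h := moveMA_aux i o b f g x ρ a [] _ 1 (Big.loopE rfl)
  exact Big.cast (Big.seq (Big.push _ _ _) h) (by omega)

/-- `moveMB`. -/
lemma moveMB_spec (i o a b f g ρ : List Bool) (x : V) :
    Big moveMB ⟨i, o, ser x ++ ρ, a, b, [], f, g⟩ ⟨i, o, ρ, a, (ser x).reverse ++ b, [], f, g⟩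
      (mvC x + 2) := by
  have h := moveMB_aux i o a f g x ρ b [] _ 1 (Big.loopE rfl)
  exact Big.cast (Big.seq (Big.push _ _ _) h) (by omega)

/-- `dropM`. -/
lemma dropM_spec (i o a b f g ρ : List Bool) (x : V) :
    Big dropM ⟨i, o, ser x ++ ρ, a, b, [], f, g⟩ ⟨i, o, ρ, a, b, [], f, g⟩ (mvC x + 2) := by
  have h := dropM_aux i o a b f g x ρ [] _ 1 (Big.loopE rfl)
  exact Big.cast (Big.seq (Big.push _ _ _) h) (by omega)

end

/-- Move all of `A` to `M`. -/
def allAM : Cmd := .loop .A (.push .M false) (.push .M true)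
/-- Move all of `B` to `M`. -/
def allBM : Cmd := .loop .B (.push .M false) (.push .M true)
/-- Move all of `B` to `A`. -/
def allBA : Cmd := .loop .B (.push .A false) (.push .A true)
/-- Move all of `A` to `M` and `B`. -/
def allAMB : Cmd :=
  .loop .A (.seq (.push .M false) (.push .B false)) (.seq (.push .M true) (.push .B true))

lemma allAM_spec (i o b u f g : List Bool) (a : List Bool) : ∀ m : List Bool,
    Big allAM ⟨i, o, m, a, b, u, f, g⟩ ⟨i, o, a.reverse ++ m, [], b, u, f, g⟩ (2 * a.length + 1) := by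
  induction a with
  | nil => intro m; exact Big.loopE rfl
  | cons x l ih =>
    intro m
    have e : (x :: l).reverse ++ m = l.reverse ++ x :: m := by simp
    rw [e]
    cases x
    · have h : Big allAM ⟨i, o, m, false :: l, b, u, f, g⟩ ⟨i, o, l.reverse ++ false :: m, [], b, u, f, g⟩
          (1 + (2 * l.length + 1) + 1) := Big.loop0 (l := l) rfl (Big.push _ _ _) (ih (false :: m))
      exact Big.cast h (by simp only [List.length_cons]; omega)
    · have h : Big allAM ⟨i, o, m, true :: l, b, u, f, g⟩ ⟨i, o, l.reverse ++ true :: m, [], b, u, f, g⟩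
          (1 + (2 * l.length + 1) + 1) := Big.loop1 (l := l) rfl (Big.push _ _ _) (ih (true :: m))
      exact Big.cast h (by simp only [List.length_cons]; omega)

lemma allBM_spec (i o a u f g : List Bool) (b : List Bool) : ∀ m : List Bool,
    Big allBM ⟨i, o, m, a, b, u, f, g⟩ ⟨i, o, b.reverse ++ m, a, [], u, f, g⟩ (2 * b.length + 1) := by
  induction b with
  | nil => intro m; exact Big.loopE rfl
  | cons x l ih =>
    intro m
    have e : (x :: l).reverse ++ m = l.reverse ++ x :: m := by simp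
    rw [e]
    cases x
    · have h : Big allBM ⟨i, o, m, a, false :: l, u, f, g⟩ ⟨i, o, l.reverse ++ false :: m, a, [], u, f, g⟩
          (1 + (2 * l.length + 1) + 1) := Big.loop0 (l := l) rfl (Big.push _ _ _) (ih (false :: m))
      exact Big.cast h (by simp only [List.length_cons]; omega)
    · have h : Big allBM ⟨i, o, m, a, true :: l, u, f, g⟩ ⟨i, o, l.reverse ++ true :: m, a, [], u, f, g⟩
          (1 + (2 * l.length + 1) + 1) := Big.loop1 (l := l) rfl (Big.push _ _ _) (ih (true :: m))
      exact Big.cast h (by simp only [List.length_cons]; omega)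

lemma allBA_spec (i o m u f g : List Bool) (b : List Bool) : ∀ a : List Bool,
    Big allBA ⟨i, o, m, a, b, u, f, g⟩ ⟨i, o, m, b.reverse ++ a, [], u, f, g⟩ (2 * b.length + 1) := by
  induction b with
  | nil => intro m; exact Big.loopE rfl
  | cons x l ih =>
    intro a
    have e : (x :: l).reverse ++ a = l.reverse ++ x :: a := by simp
    rw [e]
    cases x
    · have h : Big allBA ⟨i, o, m, a, false :: l, u, f, g⟩ ⟨i, o, m, l.reverse ++ false :: a, [], u, f, g⟩
          (1 + (2 * l.length + 1) + 1) := Big.loop0 (l := l) rfl (Big.push _ _ _) (ih (false :: a))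
      exact Big.cast h (by simp only [List.length_cons]; omega)
    · have h : Big allBA ⟨i, o, m, a, true :: l, u, f, g⟩ ⟨i, o, m, l.reverse ++ true :: a, [], u, f, g⟩
          (1 + (2 * l.length + 1) + 1) := Big.loop1 (l := l) rfl (Big.push _ _ _) (ih (true :: a))
      exact Big.cast h (by simp only [List.length_cons]; omega)

lemma allAMB_spec (i o u f g : List Bool) (a : List Bool) : ∀ m b : List Bool,
    Big allAMB ⟨i, o, m, a, b, u, f, g⟩ ⟨i, o, a.reverse ++ m, [], a.reverse ++ b, u, f, g⟩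
      (3 * a.length + 1) := by
  induction a with
  | nil => intro m b; exact Big.loopE rfl
  | cons x l ih =>
    intro m b
    have e : (x :: l).reverse ++ m = l.reverse ++ x :: m := by simp
    have e' : (x :: l).reverse ++ b = l.reverse ++ x :: b := by simp
    rw [e, e']
    cases x
    · have h : Big allAMB ⟨i, o, m, false :: l, b, u, f, g⟩
          ⟨i, o, l.reverse ++ false :: m, [], l.reverse ++ false :: b, u, f, g⟩
          (2 + (3 * l.length + 1) + 1) := Big.loop0 (l := l) rfl
            (Big.seq (t1 := 1) (t2 := 1) (Big.push _ _ _) (Big.push _ _ _)) (ih (false :: m) (false :: b))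
      exact Big.cast h (by simp only [List.length_cons]; omega)
    · have h : Big allAMB ⟨i, o, m, true :: l, b, u, f, g⟩
          ⟨i, o, l.reverse ++ true :: m, [], l.reverse ++ true :: b, u, f, g⟩
          (2 + (3 * l.length + 1) + 1) := Big.loop1 (l := l) rfl
            (Big.seq (t1 := 1) (t2 := 1) (Big.push _ _ _) (Big.push _ _ _)) (ih (true :: m) (true :: b))
      exact Big.cast h (by simp only [List.length_cons]; omega)

/-! ### Standard stores -/

/-- The store with main stack `m`, all others empty. -/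
def st (m : List Bool) : Mem := ⟨[], [], m, [], [], [], [], []⟩

/-- The store with main stack `m`, the flag set. -/
def stF (m : List Bool) : Mem := ⟨[], [], m, [], [], [], [true], []⟩

/-- `c` transforms the top value `x` into `y`, in time at most `T`. -/
def Runs (c : Cmd) (x y : V) (T : ℕ) : Prop :=
  ∀ ρ : List Bool, ∃ t, t ≤ T ∧ Big c (st (ser x ++ ρ)) (st (ser y ++ ρ)) t

lemma Runs.mono {c : Cmd} {x y : V} {T T' : ℕ} (h : Runs c x y T) (hT : T ≤ T') : Runs c x y T' :=
  fun ρ => let ⟨t, ht, hb⟩ := h ρ; ⟨t, ht.trans hT, hb⟩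

lemma Runs.seq {c d : Cmd} {x y z : V} {T1 T2 : ℕ} (h1 : Runs c x y T1) (h2 : Runs d y z T2) :
    Runs (.seq c d) x z (T1 + T2) := fun ρ => by
  obtain ⟨t1, ht1, hb1⟩ := h1 ρ
  obtain ⟨t2, ht2, hb2⟩ := h2 ρ
  exact ⟨t1 + t2, by omega, Big.seq hb1 hb2⟩

lemma runs_skip (x : V) : Runs .skip x x 1 := fun _ => ⟨1, le_rfl, Big.skip _⟩

/-- Duplicate the top value. -/
def dupC : Cmd := .seq moveMA (.seq allAMB (.seq allBA allAM))

lemma dupC_spec (x : V) (ρ : List Bool) :
    ∃ t, t ≤ 12 * size x + 6 ∧ Big dupC (st (ser x ++ ρ)) (st (ser x ++ ser x ++ ρ)) t := by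
  have h1 := moveMA_spec [] [] [] [] [] [] ρ x
  have h2 := allAMB_spec [] [] [] [] [] ((ser x).reverse ++ []) ρ []
  have h3 := allBA_spec [] [] (((ser x).reverse ++ []).reverse ++ ρ) [] [] []
    (((ser x).reverse ++ []).reverse ++ []) []
  have h4 := allAM_spec [] [] [] [] [] [] ((((ser x).reverse ++ []).reverse ++ []).reverse ++ [])
    (((ser x).reverse ++ []).reverse ++ ρ)
  have hb := Big.seq h1 (Big.seq h2 (Big.seq h3 h4))
  have e : (((((ser x).reverse ++ []).reverse ++ []).reverse ++ []).reverse ++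
      (((ser x).reverse ++ []).reverse ++ ρ)) = ser x ++ ser x ++ ρ := by simp
  rw [e] at hb
  refine ⟨_, ?_, hb⟩
  have := mvC_le x
  simp only [List.append_nil, List.reverse_reverse, List.length_reverse]
  have e : (ser x).length = size x := rfl
  rw [e]
  omega

/-- Swap the two top values. -/
def swapC : Cmd := .seq moveMA (.seq moveMB (.seq allAM allBM))

lemma swapC_spec (x y : V) (ρ : List Bool) :
    ∃ t, t ≤ 6 * size x + 6 * size y + 6 ∧
      Big swapC (st (ser x ++ ser y ++ ρ)) (st (ser y ++ ser x ++ ρ)) t := by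
  have h1 := moveMA_spec [] [] [] [] [] [] (ser y ++ ρ) x
  have h2 := moveMB_spec [] [] ((ser x).reverse ++ []) [] [] [] ρ y
  have h3 := allAM_spec [] [] ((ser y).reverse ++ []) [] [] [] ((ser x).reverse ++ []) ρ
  have h4 := allBM_spec [] [] [] [] [] [] ((ser y).reverse ++ [])
    (((ser x).reverse ++ []).reverse ++ ρ)
  have hb := Big.seq h1 (Big.seq h2 (Big.seq h3 h4))
  have e : ((ser y).reverse ++ []).reverse ++ (((ser x).reverse ++ []).reverse ++ ρ) =
      ser y ++ ser x ++ ρ := by simp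
  rw [e] at hb
  rw [List.append_assoc]
  refine ⟨_, ?_, hb⟩
  have := mvC_le x
  have := mvC_le y
  simp only [List.append_nil, List.length_reverse]
  have e : (ser x).length = size x := rfl
  have e' : (ser y).length = size y := rfl
  rw [e, e']
  omega

/-- First projection (`nil ↦ nil`). -/
def fstC : Cmd := .pop .M .skip (.push .M false) (.seq moveMA (.seq dropM allAM))

lemma fstC_cons (x y : V) : Runs fstC (.cons x y) x (7 * size x + 4 * size y + 8) := fun ρ => by
  have h1 := moveMA_spec [] [] [] [] [] [] (ser y ++ ρ) x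
  have h2 := dropM_spec [] [] ((ser x).reverse ++ []) [] [] [] ρ y
  have h3 := allAM_spec [] [] [] [] [] [] ((ser x).reverse ++ []) ρ
  have hb := Big.pop1 (e := .skip) (c0 := .push .M false) (r := .M) (S := st (ser (.cons x y) ++ ρ))
    (l := ser x ++ (ser y ++ ρ)) (by simp [st, Mem.get, ser, List.append_assoc])
    (Big.seq h1 (Big.seq h2 h3))
  have e : ((ser x).reverse ++ []).reverse ++ ρ = ser x ++ ρ := by simp
  rw [e] at hb
  refine ⟨_, ?_, hb⟩
  have := mvC_le x
  have := mvC_le y
  simp only [List.append_nil, List.length_reverse]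
  have e : (ser x).length = size x := rfl
  rw [e]
  omega

lemma fstC_nil : Runs fstC .nil .nil 2 := fun ρ =>
  ⟨2, le_rfl, Big.pop0 (l := ρ) rfl (Big.push _ _ _)⟩

/-- Second projection (`nil ↦ nil`). -/
def sndC : Cmd := .pop .M .skip (.push .M false) dropM

lemma sndC_cons (x y : V) : Runs sndC (.cons x y) y (4 * size x + 3) := fun ρ => by
  have h1 := dropM_spec [] [] [] [] [] [] (ser y ++ ρ) x
  have hb := Big.pop1 (e := .skip) (c0 := .push .M false) (r := .M) (S := st (ser (.cons x y) ++ ρ))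
    (l := ser x ++ (ser y ++ ρ)) (by simp [st, Mem.get, ser, List.append_assoc]) h1
  refine ⟨_, ?_, hb⟩
  have := mvC_le x
  omega

lemma sndC_nil : Runs sndC .nil .nil 2 := fun ρ =>
  ⟨2, le_rfl, Big.pop0 (l := ρ) rfl (Big.push _ _ _)⟩

/-- Push a constant value on `M`. -/
def pushV : V → Cmd
  | .nil => .push .M false
  | .cons a b => .seq (pushV b) (.seq (pushV a) (.push .M true))

lemma pushV_spec (v : V) : ∀ m : List Bool, Big (pushV v) (st m) (st (ser v ++ m)) (size v) := by
  induction v with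
  | nil => intro m; exact Big.push _ _ _
  | cons a b ha hb =>
    intro m
    have h1 := hb m
    have h2 := ha (ser b ++ m)
    have h3 : Big (.push .M true) (st (ser a ++ (ser b ++ m)))
        (st (true :: (ser a ++ (ser b ++ m)))) 1 := Big.push _ _ _
    have e : ser (.cons a b) ++ m = true :: (ser a ++ (ser b ++ m)) := by
      simp [ser, List.append_assoc]
    rw [e]
    exact Big.cast (Big.seq h1 (Big.seq h2 h3)) (by simp only [size_cons]; omega)

/-- Replace the top value by a constant. -/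
def constC (v : V) : Cmd := .seq dropM (pushV v)

lemma constC_spec (x v : V) : Runs (constC v) x v (4 * size x + size v + 2) := fun ρ => by
  have h1 := dropM_spec [] [] [] [] [] [] ρ x
  have h2 := pushV_spec v ρ
  exact ⟨_, by have := mvC_le x; omega, Big.seq h1 h2⟩

/-- `(f x, g x)` from `x`. -/
def pairC (cf cg : Cmd) : Cmd :=
  .seq dupC (.seq cg (.seq swapC (.seq cf (.push .M true))))

lemma pairC_spec {cf cg : Cmd} {x a b : V} {Tf Tg : ℕ} (hf : Runs cf x a Tf) (hg : Runs cg x b Tg) :
    Runs (pairC cf cg) x (.cons a b) (Tf + Tg + 18 * size x + 6 * size b + 13) := fun ρ => by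
  obtain ⟨t1, ht1, h1⟩ := dupC_spec x ρ
  obtain ⟨t2, ht2, h2⟩ := hg (ser x ++ ρ)
  obtain ⟨t3, ht3, h3⟩ := swapC_spec b x ρ
  obtain ⟨t4, ht4, h4⟩ := hf (ser b ++ ρ)
  have h5 : Big (.push .M true) (st (ser a ++ (ser b ++ ρ))) (st (true :: (ser a ++ (ser b ++ ρ)))) 1 :=
    Big.push _ _ _
  have e : ser (.cons a b) ++ ρ = true :: (ser a ++ (ser b ++ ρ)) := by
    simp [ser, List.append_assoc]
  rw [e]
  rw [List.append_assoc] at h1 h3
  rw [List.append_assoc] at h3
  exact ⟨_, by omega, Big.seq h1 (Big.seq h2 (Big.seq h3 (Big.seq h4 h5)))⟩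

/-- The encoding of `true` and `false`. -/
def vT : V := .cons .nil .nil
/-- The encoding of `false`. -/
def vF : V := .nil

/-- Pop one bit of `M`. -/
def popM : Cmd := .pop .M .skip .skip .skip

/-- Given `b` (`vT` or `vF`) above `x`, pop `b` and run `c1` or `c0`. -/
def branchC (c1 c0 : Cmd) : Cmd := .pop .M .skip c0 (.seq popM (.seq popM c1))

/-- `if b x then f x else g x`. -/
def iteC (cb cf cg : Cmd) : Cmd := .seq dupC (.seq cb (branchC cf cg))

lemma iteC_true {cb cf cg : Cmd} {x y : V} {Tb Tf : ℕ} (hb : Runs cb x vT Tb) (hf : Runs cf x y Tf) :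
    Runs (iteC cb cf cg) x y (Tb + Tf + 12 * size x + 11) := fun ρ => by
  obtain ⟨t1, ht1, h1⟩ := dupC_spec x ρ
  obtain ⟨t2, ht2, h2⟩ := hb (ser x ++ ρ)
  obtain ⟨t3, ht3, h3⟩ := hf ρ
  rw [List.append_assoc] at h1
  have e : ser vT ++ (ser x ++ ρ) = true :: false :: false :: (ser x ++ ρ) := rfl
  rw [e] at h2
  have hp1 : Big popM (st (false :: false :: (ser x ++ ρ))) (st (false :: (ser x ++ ρ))) 2 :=
    Big.pop0 (l := false :: (ser x ++ ρ)) rfl (Big.skip _)
  have hp2 : Big popM (st (false :: (ser x ++ ρ))) (st (ser x ++ ρ)) 2 :=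
    Big.pop0 (l := ser x ++ ρ) rfl (Big.skip _)
  have h4 : Big (branchC cf cg) (st (true :: false :: false :: (ser x ++ ρ))) (st (ser y ++ ρ))
      (2 + (2 + t3) + 1) :=
    Big.pop1 (l := false :: false :: (ser x ++ ρ)) rfl (Big.seq hp1 (Big.seq hp2 h3))
  exact ⟨_, by omega, Big.seq h1 (Big.seq h2 h4)⟩

lemma iteC_false {cb cf cg : Cmd} {x y : V} {Tb Tg : ℕ} (hb : Runs cb x vF Tb) (hg : Runs cg x y Tg) :
    Runs (iteC cb cf cg) x y (Tb + Tg + 12 * size x + 11) := fun ρ => by
  obtain ⟨t1, ht1, h1⟩ := dupC_spec x ρ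
  obtain ⟨t2, ht2, h2⟩ := hb (ser x ++ ρ)
  obtain ⟨t3, ht3, h3⟩ := hg ρ
  rw [List.append_assoc] at h1
  have e : ser vF ++ (ser x ++ ρ) = false :: (ser x ++ ρ) := rfl
  rw [e] at h2
  have h4 : Big (branchC cf cg) (st (false :: (ser x ++ ρ))) (st (ser y ++ ρ)) (t3 + 1) :=
    Big.pop0 (l := ser x ++ ρ) rfl h3
  exact ⟨_, by omega, Big.seq h1 (Big.seq h2 h4)⟩

/-- Does the top value equal `nil`? Replaces it by `vT` or `vF`. -/
def isNilC : Cmd :=
  .pop .M .skip (pushV vT) (.seq dropM (.seq dropM (pushV vF)))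

lemma isNilC_nil : Runs isNilC .nil vT 4 := fun ρ =>
  ⟨4, le_rfl, Big.pop0 (l := ρ) rfl (pushV_spec vT ρ)⟩

lemma isNilC_cons (x y : V) : Runs isNilC (.cons x y) vF (4 * size x + 4 * size y + 7) := fun ρ => by
  have h1 := dropM_spec [] [] [] [] [] [] (ser y ++ ρ) x
  have h2 := dropM_spec [] [] [] [] [] [] ρ y
  have h3 := pushV_spec vF ρ
  have hb := Big.pop1 (e := .skip) (c0 := pushV vT) (r := .M) (S := st (ser (.cons x y) ++ ρ))
    (l := ser x ++ (ser y ++ ρ)) (by simp [st, Mem.get, ser, List.append_assoc])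
    (Big.seq h1 (Big.seq h2 h3))
  refine ⟨_, ?_, hb⟩
  have := mvC_le x
  have := mvC_le y
  have : size vF = 1 := rfl
  omega

/-- The loop body of `whileC`. -/
def whileB (test body : Cmd) : Cmd :=
  .seq dupC (.seq test (branchC (.seq body (.push .F true)) .skip))

/-- The loop of `whileC`. -/
def whileL (test body : Cmd) : Cmd := .loop .F (whileB test body) (whileB test body)

/-- `while test do body`, the test being run on a copy of the top value. -/
def whileC (test body : Cmd) : Cmd := .seq (.push .F true) (whileL test body)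

lemma while_step {test body : Cmd} {x y : V} {Tt Tb : ℕ} (ht : Runs test x vT Tt)
    (hb : Runs body x y Tb) (ρ : List Bool) (S' : Mem) (t' : ℕ)
    (hl : Big (whileL test body) (stF (ser y ++ ρ)) S' t') :
    ∃ t, t ≤ t' + Tt + Tb + 12 * size x + 13 ∧
      Big (whileL test body) (stF (ser x ++ ρ)) S' t := by
  obtain ⟨t1, ht1, h1⟩ := dupC_spec x ρ
  obtain ⟨t2, ht2, h2⟩ := ht (ser x ++ ρ)
  obtain ⟨t3, ht3, h3⟩ := hb ρ
  rw [List.append_assoc] at h1
  have e : ser vT ++ (ser x ++ ρ) = true :: false :: false :: (ser x ++ ρ) := rfl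
  rw [e] at h2
  have hp1 : Big popM (st (false :: false :: (ser x ++ ρ))) (st (false :: (ser x ++ ρ))) 2 :=
    Big.pop0 (l := false :: (ser x ++ ρ)) rfl (Big.skip _)
  have hp2 : Big popM (st (false :: (ser x ++ ρ))) (st (ser x ++ ρ)) 2 :=
    Big.pop0 (l := ser x ++ ρ) rfl (Big.skip _)
  have hpf : Big (.push .F true) (st (ser y ++ ρ)) (stF (ser y ++ ρ)) 1 := Big.push _ _ _
  have h4 : Big (branchC (.seq body (.push .F true)) .skip)
      (st (true :: false :: false :: (ser x ++ ρ))) (stF (ser y ++ ρ)) (2 + (2 + (t3 + 1)) + 1) :=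
    Big.pop1 (l := false :: false :: (ser x ++ ρ)) rfl
      (Big.seq hp1 (Big.seq hp2 (Big.seq h3 hpf)))
  have h5 : Big (whileB test body) (st (ser x ++ ρ)) (stF (ser y ++ ρ)) _ :=
    Big.seq h1 (Big.seq h2 h4)
  have h6 := Big.loop1 (r := .F) (S := stF (ser x ++ ρ)) (l := []) rfl h5 hl
  exact ⟨_, by omega, h6⟩

lemma while_exit {test body : Cmd} {x : V} {Tt : ℕ} (ht : Runs test x vF Tt) (ρ : List Bool) :
    ∃ t, t ≤ Tt + 12 * size x + 10 ∧
      Big (whileL test body) (stF (ser x ++ ρ)) (st (ser x ++ ρ)) t := by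
  obtain ⟨t1, ht1, h1⟩ := dupC_spec x ρ
  obtain ⟨t2, ht2, h2⟩ := ht (ser x ++ ρ)
  rw [List.append_assoc] at h1
  have e : ser vF ++ (ser x ++ ρ) = false :: (ser x ++ ρ) := rfl
  rw [e] at h2
  have h4 : Big (branchC (.seq body (.push .F true)) .skip) (st (false :: (ser x ++ ρ)))
      (st (ser x ++ ρ)) (1 + 1) :=
    Big.pop0 (l := ser x ++ ρ) rfl (Big.skip _)
  have h5 : Big (whileB test body) (st (ser x ++ ρ)) (st (ser x ++ ρ)) _ :=
    Big.seq h1 (Big.seq h2 h4)
  have h7 : Big (whileL test body) (st (ser x ++ ρ)) (st (ser x ++ ρ)) 1 := Big.loopE rfl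
  have h6 := Big.loop1 (r := .F) (S := stF (ser x ++ ρ)) (l := []) rfl h5 h7
  exact ⟨_, by omega, h6⟩

/-- The iteration theorem. -/
theorem whileC_spec {test body : Cmd} {Tt Tb B : ℕ} (n : ℕ) (s : ℕ → V)
    (h1 : ∀ k < n, Runs test (s k) vT Tt ∧ Runs body (s k) (s (k + 1)) Tb)
    (h2 : Runs test (s n) vF Tt) (hB : ∀ k ≤ n, size (s k) ≤ B) :
    Runs (whileC test body) (s 0) (s n) ((n + 1) * (Tt + Tb + 12 * B + 13) + 1) := fun ρ => by
  have key : ∀ d k, k + d = n → ∃ t, t ≤ (d + 1) * (Tt + Tb + 12 * B + 13) ∧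
      Big (whileL test body) (stF (ser (s k) ++ ρ)) (st (ser (s n) ++ ρ)) t := by
    intro d
    induction d with
    | zero =>
      intro k hk
      obtain rfl : k = n := by omega
      obtain ⟨t, ht, hb⟩ := while_exit (body := body) h2 ρ
      refine ⟨t, ?_, hb⟩
      have := hB k le_rfl
      nlinarith
    | succ d ih =>
      intro k hk
      obtain ⟨t', ht', hb'⟩ := ih (k + 1) (by omega)
      obtain ⟨h3, h4⟩ := h1 k (by omega)
      obtain ⟨t, ht, hb⟩ := while_step h3 h4 ρ _ t' hb'
      refine ⟨t, ?_, hb⟩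
      have := hB k (by omega)
      have e : (d + 1 + 1) * (Tt + Tb + 12 * B + 13) =
          (d + 1) * (Tt + Tb + 12 * B + 13) + (Tt + Tb + 12 * B + 13) := by ring
      omega
  obtain ⟨t, ht, hb⟩ := key n 0 (by omega)
  have hp : Big (.push .F true) (st (ser (s 0) ++ ρ)) (stF (ser (s 0) ++ ρ)) 1 := Big.push _ _ _
  exact ⟨_, by omega, Big.seq hp hb⟩

end Crest.Agent.PolyLib
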