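/-
PolyLib, layer 3: typed polynomial-time functions `PT f` (a function algebra à la Cobham):
identity, composition, pairing, projections, constants, conditionals, list destructors, `foldl` with a
polynomial bound on the accumulator.  `PT.polyTime`: `PT f → Crest.Complexity.PolyTime f`.
-/
import Crest.Agent.PolyLib.Tree
import Crest.Prelude.Def_Complexity

set_option autoImplicit false

namespace Crest.Agent.PolyLib

open Polynomial

/-- Tree encodings. -/
class Enc (α : Type) where
  enc : α → V

open Enc

instance : Enc Unit := ⟨fun _ => .nil⟩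
instance : Enc Bool := ⟨fun b => if b then vT else vF⟩
instance {α β : Type} [Enc α] [Enc β] : Enc (α × β) := ⟨fun p => .cons (enc p.1) (enc p.2)⟩

/-- Encoding of lists. -/
def encList {α : Type} [Enc α] : List α → V
  | [] => .nil
  | x :: l => .cons (enc x) (encList l)

instance {α : Type} [Enc α] : Enc (List α) := ⟨encList⟩

/-- Natural numbers are encoded in binary, through `Nat.bits`. -/
instance : Enc ℕ := ⟨fun n => enc n.bits⟩

section basics

variable {α β γ δ : Type} [Enc α] [Enc β] [Enc γ] [Enc δ]

@[simp] lemma enc_true : enc true = vT := rfl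
@[simp] lemma enc_false : enc false = vF := rfl
@[simp] lemma enc_pair (a : α) (b : β) : enc (a, b) = .cons (enc a) (enc b) := rfl
@[simp] lemma enc_nil : enc ([] : List α) = .nil := rfl
@[simp] lemma enc_cons (x : α) (l : List α) : enc (x :: l) = .cons (enc x) (enc l) := rfl

lemma peval_mono (p : Polynomial ℕ) {a b : ℕ} (h : a ≤ b) : p.eval a ≤ p.eval b := by
  rw [Polynomial.eval_eq_sum_range, Polynomial.eval_eq_sum_range]
  exact Finset.sum_le_sum fun i _ => Nat.mul_le_mul_left _ (Nat.pow_le_pow_left h i)

/-- `f` is computed in polynomial time, with a polynomial bound on the output size. -/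
def PT (f : α → β) : Prop :=
  ∃ (c : Cmd) (p : Polynomial ℕ), ∀ a, size (enc (f a)) ≤ p.eval (size (enc a)) ∧
    Runs c (enc a) (enc (f a)) (p.eval (size (enc a)))

lemma PT.congr {f g : α → β} (hf : PT f) (h : ∀ a, f a = g a) : PT g := by
  have : f = g := funext h
  rwa [← this]

/-- Same encodings: the identity program. -/
lemma PT.of_enc_eq {f : α → β} (h : ∀ a, enc (f a) = enc a) : PT f := by
  refine ⟨.skip, X + 1, fun a => ⟨?_, ?_⟩⟩
  · rw [h]; simp
  · rw [h]
    refine (runs_skip _).mono ?_
    simp only [eval_add, eval_X, eval_one]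
    have := size_pos (enc a)
    omega

lemma PT.id : PT (fun a : α => a) := PT.of_enc_eq fun _ => rfl

lemma PT.comp {f : β → γ} {g : α → β} (hf : PT f) (hg : PT g) : PT (fun a => f (g a)) := by
  obtain ⟨cf, pf, hf⟩ := hf
  obtain ⟨cg, pg, hg⟩ := hg
  refine ⟨.seq cg cf, pg + pf.comp pg, fun a => ?_⟩
  obtain ⟨h1, h2⟩ := hg a
  obtain ⟨h3, h4⟩ := hf (g a)
  have h5 := peval_mono pf h1
  simp only [eval_add, eval_comp]
  refine ⟨by omega, (h2.seq h4).mono (by omega)⟩

lemma PT.pair {f : α → β} {g : α → γ} (hf : PT f) (hg : PT g) : PT (fun a => (f a, g a)) := by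
  obtain ⟨cf, pf, hf⟩ := hf
  obtain ⟨cg, pg, hg⟩ := hg
  refine ⟨pairC cf cg, pf + pg + C 18 * X + C 6 * pg + C 13, fun a => ?_⟩
  obtain ⟨h1, h2⟩ := hg a
  obtain ⟨h3, h4⟩ := hf a
  have h5 := pairC_spec h4 h2
  simp only [eval_add, eval_mul, eval_C, eval_X, enc_pair, size_cons]
  refine ⟨by omega, h5.mono (by omega)⟩

lemma PT.fst : PT (fun p : α × β => p.1) := by
  refine ⟨fstC, C 7 * X + C 8, ?_⟩
  rintro ⟨x, y⟩
  simp only [eval_add, eval_mul, eval_C, eval_X, enc_pair, size_cons]
  exact ⟨by omega, (fstC_cons _ _).mono (by omega)⟩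

lemma PT.snd : PT (fun p : α × β => p.2) := by
  refine ⟨sndC, C 4 * X + C 3, ?_⟩
  rintro ⟨x, y⟩
  simp only [eval_add, eval_mul, eval_C, eval_X, enc_pair, size_cons]
  exact ⟨by omega, (sndC_cons _ _).mono (by omega)⟩

lemma PT.const (v : β) : PT (fun _ : α => v) := by
  refine ⟨constC (enc v), C 4 * X + C (size (enc v) + 2), fun a => ?_⟩
  simp only [eval_add, eval_mul, eval_C, eval_X]
  exact ⟨by omega, (constC_spec _ _).mono (by omega)⟩

lemma PT.ite {b : α → Bool} {f g : α → β} (hb : PT b) (hf : PT f) (hg : PT g) :
    PT (fun a => if b a then f a else g a) := by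
  obtain ⟨cb, pb, hb⟩ := hb
  obtain ⟨cf, pf, hf⟩ := hf
  obtain ⟨cg, pg, hg⟩ := hg
  refine ⟨iteC cb cf cg, pb + pf + pg + C 12 * X + C 11, fun a => ?_⟩
  obtain ⟨-, h2⟩ := hb a
  obtain ⟨h3, h4⟩ := hf a
  obtain ⟨h5, h6⟩ := hg a
  simp only [eval_add, eval_mul, eval_C, eval_X]
  cases h : b a with
  | true =>
    rw [h] at h2
    simp only [if_true]
    exact ⟨by omega, (iteC_true h2 h4).mono (by omega)⟩
  | false =>
    rw [h] at h2
    simp only [Bool.false_eq_true, if_false]
    exact ⟨by omega, (iteC_false h2 h6).mono (by omega)⟩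

lemma PT.isEmpty : PT (fun l : List β => l.isEmpty) := by
  refine ⟨isNilC, C 4 * X + C 7, fun l => ?_⟩
  simp only [eval_add, eval_mul, eval_C, eval_X]
  cases l with
  | nil =>
    have : size vT = 3 := rfl
    simp only [List.isEmpty_nil, enc_true, enc_nil, size_nil, this]
    exact ⟨by omega, isNilC_nil.mono (by omega)⟩
  | cons x l =>
    have : size vF = 1 := rfl
    simp only [List.isEmpty_cons, enc_false, enc_cons, size_cons, this]
    exact ⟨by omega, (isNilC_cons _ _).mono (by omega)⟩

lemma PT.tail : PT (fun l : List β => l.tail) := by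
  refine ⟨sndC, C 4 * X + C 3, fun l => ?_⟩
  simp only [eval_add, eval_mul, eval_C, eval_X]
  cases l with
  | nil =>
    simp only [List.tail_nil, enc_nil, size_nil]
    exact ⟨by omega, sndC_nil.mono (by omega)⟩
  | cons x l =>
    simp only [List.tail_cons, enc_cons, size_cons]
    exact ⟨by omega, (sndC_cons _ _).mono (by omega)⟩

/-- `x :: l`: the encodings agree. -/
lemma PT.consPair : PT (fun p : β × List β => p.1 :: p.2) := PT.of_enc_eq fun _ => rfl

lemma PT.cons {f : α → β} {g : α → List β} (hf : PT f) (hg : PT g) : PT (fun a => f a :: g a) :=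
  PT.consPair.comp (hf.pair hg)

/-- The head of a list, with a default value. -/
lemma PT.headD (d : β) : PT (fun l : List β => l.headD d) := by
  have h : PT (fun l : List β => if l.isEmpty then d else l.headD d) := by
    have h0 : PT (fun l : List β => l.headD d) := by
      refine ⟨.pop .M .skip (pushV (enc d)) (.seq moveMA (.seq dropM allAM)),
        C 7 * X + C (size (enc d) + 8), fun l => ?_⟩
      simp only [eval_add, eval_mul, eval_C, eval_X]
      cases l with
      | nil =>
        simp only [List.headD_nil, enc_nil, size_nil]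
        refine ⟨by omega, fun ρ => ⟨_, ?_, Big.pop0 (l := ρ) rfl (pushV_spec (enc d) ρ)⟩⟩
        omega
      | cons x l =>
        simp only [List.headD_cons, enc_cons, size_cons]
        refine ⟨by omega, fun ρ => ?_⟩
        have h1 := moveMA_spec [] [] [] [] [] [] (ser (enc l) ++ ρ) (enc x)
        have h2 := dropM_spec [] [] ((ser (enc x)).reverse ++ []) [] [] [] ρ (enc l)
        have h3 := allAM_spec [] [] [] [] [] [] ((ser (enc x)).reverse ++ []) ρ
        have hb := Big.pop1 (e := .skip) (c0 := pushV (enc d)) (r := .M)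
          (S := st (ser (.cons (enc x) (enc l)) ++ ρ))
          (l := ser (enc x) ++ (ser (enc l) ++ ρ)) (by simp [st, Mem.get, ser, List.append_assoc])
          (Big.seq h1 (Big.seq h2 h3))
        have e : ((ser (enc x)).reverse ++ []).reverse ++ ρ = ser (enc x) ++ ρ := by simp
        rw [e] at hb
        refine ⟨_, ?_, hb⟩
        have := mvC_le (enc x)
        have := mvC_le (enc l)
        simp only [List.append_nil, List.length_reverse]
        have e : (ser (enc x)).length = size (enc x) := rfl
        rw [e]
        omega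
    exact h0.congr fun l => by cases l <;> simp
  exact h.congr fun l => by cases l <;> simp

/-- Two-argument form of composition. -/
lemma PT.comp₂ {f : β × γ → δ} {g : α → β} {h : α → γ} (hf : PT f) (hg : PT g) (hh : PT h) :
    PT (fun a => f (g a, h a)) := hf.comp (hg.pair hh)

/-! ### Fold -/

lemma size_enc_drop (l : List β) (k : ℕ) : size (enc (l.drop k)) ≤ size (enc l) := by
  induction l generalizing k with
  | nil => simp
  | cons x l ih =>
    cases k with
    | zero => simp
    | succ k =>
      have := ih k
      simp only [List.drop_succ_cons, enc_cons, size_cons]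
      omega

lemma size_enc_length_le (l : List β) : l.length + 1 ≤ size (enc l) := by
  induction l with
  | nil => simp
  | cons x l ih =>
    simp only [List.length_cons, enc_cons, size_cons]
    have := size_pos (enc x)
    omega

section fold

variable {σ : Type} [Enc σ] [Inhabited β]

/-- The loop state of a fold. -/
private def foldState (l : α → List β) (init : α → σ) (step : α × σ × β → σ) (a : α) (k : ℕ) :
    α × List β × σ :=
  (a, (l a).drop k, ((l a).take k).foldl (fun s b => step (a, s, b)) (init a))

/-- The loop test. -/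
private def foldTest (t : α × List β × σ) : Bool := !t.2.1.isEmpty

/-- The loop body. -/
private def foldBody (step : α × σ × β → σ) (t : α × List β × σ) : α × List β × σ :=
  if t.2.1.isEmpty then t else (t.1, t.2.1.tail, step (t.1, t.2.2, t.2.1.headD default))

omit [Inhabited β] in
private lemma foldTest_pt : PT (foldTest : α × List β × σ → Bool) := by
  have h1 : PT (fun b : Bool => !b) :=
    (PT.ite (b := fun b : Bool => b) PT.id (PT.const false) (PT.const true)).congr
      fun b => by cases b <;> rfl
  have h2 : PT (fun t : α × List β × σ => t.2.1.isEmpty) :=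
    PT.isEmpty.comp (PT.fst.comp PT.snd)
  exact h1.comp h2

private lemma foldBody_pt {step : α × σ × β → σ} (hs : PT step) :
    PT (foldBody step : α × List β × σ → α × List β × σ) := by
  have h2 : PT (fun t : α × List β × σ => t.2.1.isEmpty) :=
    PT.isEmpty.comp (PT.fst.comp PT.snd)
  have h3 : PT (fun t : α × List β × σ => t.2.1) := PT.fst.comp PT.snd
  have h4 : PT (fun t : α × List β × σ => t.2.2) := PT.snd.comp PT.snd
  have h5 : PT (fun t : α × List β × σ => t.2.1.headD default) := (PT.headD default).comp h3
  have h6 : PT (fun t : α × List β × σ => step (t.1, t.2.2, t.2.1.headD default)) :=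
    hs.comp (PT.fst.pair (h4.pair h5))
  have h7 : PT (fun t : α × List β × σ => (t.1, t.2.1.tail, step (t.1, t.2.2, t.2.1.headD default))) :=
    PT.fst.pair ((PT.tail.comp h3).pair h6)
  exact PT.ite h2 PT.id h7

/-- `foldl` with a polynomial bound on the accumulators. -/
theorem PT.foldl {l : α → List β} {init : α → σ} {step : α × σ × β → σ}
    (hl : PT l) (hi : PT init) (hs : PT step) (q : Polynomial ℕ)
    (hq : ∀ a k, k ≤ (l a).length →
      size (enc (((l a).take k).foldl (fun s b => step (a, s, b)) (init a))) ≤
        q.eval (size (enc a))) :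
    PT (fun a => (l a).foldl (fun s b => step (a, s, b)) (init a)) := by
  obtain ⟨ct, pt, ht⟩ := foldTest_pt (α := α) (β := β) (σ := σ)
  obtain ⟨cb, pb, hb⟩ := foldBody_pt hs
  obtain ⟨cl, pl, hl⟩ := hl
  obtain ⟨ci, pi, hi⟩ := hi
  -- the polynomial bounding the size of the states
  let PB : Polynomial ℕ := X + pl + q + C 2
  have hPB : ∀ N, PB.eval N = N + pl.eval N + q.eval N + 2 := fun N => by
    simp [PB]
  let K : Polynomial ℕ := pt.comp PB + pb.comp PB + C 12 * PB + C 13
  have hK : ∀ N, K.eval N =
      pt.eval (PB.eval N) + pb.eval (PB.eval N) + 12 * PB.eval N + 13 := fun N => by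
    simp [K, eval_comp]
  -- the total time
  refine ⟨.seq (pairC .skip (pairC cl ci)) (.seq (whileC ct cb) (.seq sndC sndC)),
    pl + pi + C 40 * X + C 6 * pl + C 12 * pi + C 6 * q + C 60 + (pl + C 1) * K, ?_⟩
  intro a
  have hqa := hq a
  obtain ⟨hl1, hl2⟩ := hl a
  obtain ⟨hi1, hi2⟩ := hi a
  set N := size (enc a) with hN
  have hfin : size (enc ((l a).foldl (fun s b => step (a, s, b)) (init a))) ≤ q.eval N := by
    have := hqa (l a).length le_rfl
    rwa [List.take_length] at this
  have hlen : (l a).length ≤ pl.eval N := by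
    have := size_enc_length_le (l a)
    omega
  -- states
  let st0 : ℕ → α × List β × σ := foldState l init step a
  have hst0 : ∀ k, st0 k = (a, (l a).drop k, ((l a).take k).foldl (fun s b => step (a, s, b)) (init a)) :=
    fun _ => rfl
  have hsize : ∀ k ≤ (l a).length, size (enc (st0 k)) ≤ PB.eval N := by
    intro k hk
    rw [hst0, hPB]
    have h1 := size_enc_drop (l a) k
    have h2 := hqa k hk
    simp only [enc_pair, size_cons]
    omega
  have hTt : ∀ k ≤ (l a).length, Runs ct (enc (st0 k)) (enc (foldTest (st0 k)))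
      (pt.eval (PB.eval N)) := fun k hk =>
    (ht (st0 k)).2.mono (peval_mono pt (hsize k hk))
  have hTb : ∀ k ≤ (l a).length, Runs cb (enc (st0 k)) (enc (foldBody step (st0 k)))
      (pb.eval (PB.eval N)) := fun k hk =>
    (hb (st0 k)).2.mono (peval_mono pb (hsize k hk))
  -- one iteration
  have hstep : ∀ k, k < (l a).length → foldBody step (st0 k) = st0 (k + 1) ∧
      foldTest (st0 k) = true := by
    intro k hk
    have hd : (l a).drop k = (l a)[k] :: (l a).drop (k + 1) := by
      rw [List.drop_eq_getElem_cons hk]
    have hte : ((l a).take (k + 1)) = (l a).take k ++ [(l a)[k]] := by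
      rw [List.take_succ_eq_append_getElem hk]
    constructor
    · simp only [hst0, foldBody, hd, List.isEmpty_cons, Bool.false_eq_true, if_false,
        List.tail_cons, List.headD_cons, hte, List.foldl_append, List.foldl_cons, List.foldl_nil]
    · simp only [hst0, foldTest, hd, List.isEmpty_cons, Bool.not_false]
  have hlast : foldTest (st0 (l a).length) = false := by
    simp only [hst0, foldTest, List.drop_length, List.isEmpty_nil, Bool.not_true]
  -- the while loop
  have hw := whileC_spec (test := ct) (body := cb) (Tt := pt.eval (PB.eval N))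
    (Tb := pb.eval (PB.eval N)) (B := PB.eval N) (l a).length (fun k => enc (st0 k))
    (fun k hk => by
      obtain ⟨h1, h2⟩ := hstep k hk
      have h3 := hTt k hk.le
      have h4 := hTb k hk.le
      rw [h2] at h3
      rw [h1] at h4
      exact ⟨h3, h4⟩)
    (by
      have h3 := hTt _ le_rfl
      rw [hlast] at h3
      exact h3)
    (fun k hk => hsize k hk)
  -- initial pairing
  have hp1 := pairC_spec hl2 hi2
  have hp2 := pairC_spec (runs_skip (enc a)) hp1
  have hs0 : st0 0 = (a, l a, init a) := by
    simp only [hst0, List.drop_zero, List.take_zero, List.foldl_nil]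
  -- the final projections
  have hlastS : st0 (l a).length = (a, [], (l a).foldl (fun s b => step (a, s, b)) (init a)) := by
    simp only [hst0, List.drop_length, List.take_length]
  have hf1 := sndC_cons (enc a) (.cons (enc ([] : List β))
    (enc ((l a).foldl (fun s b => step (a, s, b)) (init a))))
  have hf2 := sndC_cons (enc ([] : List β)) (enc ((l a).foldl (fun s b => step (a, s, b)) (init a)))
  have hw' : Runs (whileC ct cb) (.cons (enc a) (.cons (enc (l a)) (enc (init a))))
      (.cons (enc a) (.cons (enc ([] : List β))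
        (enc ((l a).foldl (fun s b => step (a, s, b)) (init a)))))
      (((l a).length + 1) * (pt.eval (PB.eval N) + pb.eval (PB.eval N) + 12 * PB.eval N + 13) + 1) := by
    have := hw
    simp only [hs0, hlastS, enc_pair] at this
    exact this
  have hall := hp2.seq (hw'.seq (hf1.seq hf2))
  simp only [eval_add, eval_mul, eval_C, eval_X]
  refine ⟨by have := hfin; omega, hall.mono ?_⟩
  have h1 : ((l a).length + 1) * K.eval N ≤ (pl.eval N + 1) * K.eval N :=
    Nat.mul_le_mul_right _ (by omega)
  have h2 : ((l a).length + 1) * (pt.eval (PB.eval N) + pb.eval (PB.eval N) + 12 * PB.eval N + 13)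
      = ((l a).length + 1) * K.eval N := by rw [hK]
  rw [h2]
  simp only [size_cons, size_nil, enc_nil]
  omega

end fold

end basics

/-! ### From `PT` to machines -/

/-- Read the input to the main stack. -/
def readL : Cmd :=
  .loop .A (.seq (.push .M false) (.push .M true))
    (.seq (.push .M false) (.seq (.push .M false) (.seq (.push .M true) (.push .M true))))

/-- Read the input to the main stack. -/
def readC : Cmd :=
  .seq (.loop .I (.push .A false) (.push .A true)) (.seq (.push .M false) readL)

lemma read1 (l : List Bool) : ∀ a : List Bool,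
    Big (.loop .I (.push .A false) (.push .A true)) ⟨l, [], [], a, [], [], [], []⟩
      ⟨[], [], [], l.reverse ++ a, [], [], [], []⟩ (2 * l.length + 1) := by
  induction l with
  | nil => intro a; exact Big.loopE rfl
  | cons x l ih =>
    intro a
    have e : (x :: l).reverse ++ a = l.reverse ++ x :: a := by simp
    rw [e]
    cases x
    · have h : Big (.loop .I (.push .A false) (.push .A true)) ⟨false :: l, [], [], a, [], [], [], []⟩
          ⟨[], [], [], l.reverse ++ false :: a, [], [], [], []⟩ (1 + (2 * l.length + 1) + 1) :=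
        Big.loop0 (l := l) rfl (Big.push _ _ _) (ih (false :: a))
      exact Big.cast h (by simp only [List.length_cons]; omega)
    · have h : Big (.loop .I (.push .A false) (.push .A true)) ⟨true :: l, [], [], a, [], [], [], []⟩
          ⟨[], [], [], l.reverse ++ true :: a, [], [], [], []⟩ (1 + (2 * l.length + 1) + 1) :=
        Big.loop1 (l := l) rfl (Big.push _ _ _) (ih (true :: a))
      exact Big.cast h (by simp only [List.length_cons]; omega)

lemma read2 (r : List Bool) : ∀ tail : List Bool, ∃ t, t ≤ 5 * r.length + 1 ∧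
    Big readL ⟨[], [], ser (Enc.enc tail), r, [], [], [], []⟩
      ⟨[], [], ser (Enc.enc (r.reverse ++ tail)), [], [], [], [], []⟩ t := by
  induction r with
  | nil => intro tail; exact ⟨1, le_rfl, Big.loopE rfl⟩
  | cons x l ih =>
    intro tail
    have e : (x :: l).reverse ++ tail = l.reverse ++ x :: tail := by simp
    rw [e]
    obtain ⟨t, ht, hb⟩ := ih (x :: tail)
    cases x
    · have h : Big readL ⟨[], [], ser (Enc.enc tail), false :: l, [], [], [], []⟩
          ⟨[], [], ser (Enc.enc (l.reverse ++ false :: tail)), [], [], [], [], []⟩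
          (2 + t + 1) :=
        Big.loop0 (l := l) rfl (Big.seq (t1 := 1) (t2 := 1) (Big.push _ _ _) (Big.push _ _ _)) hb
      exact ⟨_, by simp only [List.length_cons]; omega, h⟩
    · have h : Big readL ⟨[], [], ser (Enc.enc tail), true :: l, [], [], [], []⟩
          ⟨[], [], ser (Enc.enc (l.reverse ++ true :: tail)), [], [], [], [], []⟩
          (4 + t + 1) :=
        Big.loop1 (l := l) rfl (Big.seq (t1 := 1) (t2 := 3) (Big.push _ _ _)
          (Big.seq (t1 := 1) (t2 := 2) (Big.push _ _ _)
            (Big.seq (t1 := 1) (t2 := 1) (Big.push _ _ _) (Big.push _ _ _)))) hb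
      exact ⟨_, by simp only [List.length_cons]; omega, h⟩

lemma readC_spec (l : List Bool) :
    ∃ t, t ≤ 7 * l.length + 3 ∧ Big readC (inMem l) (st (ser (Enc.enc l))) t := by
  have h1 := read1 l []
  have h2 : Big (.push .M false) ⟨[], [], [], l.reverse ++ [], [], [], [], []⟩
      ⟨[], [], ser (Enc.enc ([] : List Bool)), l.reverse ++ [], [], [], [], []⟩ 1 := Big.push _ _ _
  obtain ⟨t3, ht3, h3⟩ := read2 (l.reverse ++ []) []
  have hb := Big.seq h1 (Big.seq h2 h3)
  simp only [List.append_nil, List.reverse_reverse, List.length_reverse] at hb ht3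
  exact ⟨_, by omega, hb⟩

/-- The body of the output loop. -/
def writeB : Cmd :=
  .pop .M .skip .skip
    (.pop .M .skip (.seq (.push .A false) (.push .F true))
      (.seq popM (.seq popM (.seq (.push .A true) (.push .F true)))))

/-- The output loop. -/
def writeL : Cmd := .loop .F writeB writeB

/-- Write the output. -/
def writeC : Cmd :=
  .seq (.push .F true) (.seq writeL (.loop .A (.push .O false) (.push .O true)))

lemma write1 (l : List Bool) : ∀ a : List Bool, ∃ t, t ≤ 9 * l.length + 4 ∧
    Big writeL ⟨[], [], ser (Enc.enc l), a, [], [], [true], []⟩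
      ⟨[], [], [], l.reverse ++ a, [], [], [], []⟩ t := by
  induction l with
  | nil =>
    intro a
    have hB : Big writeB ⟨[], [], [false], a, [], [], [], []⟩ ⟨[], [], [], a, [], [], [], []⟩ 2 :=
      Big.pop0 (l := []) rfl (Big.skip _)
    have h : Big writeL ⟨[], [], [false], a, [], [], [true], []⟩ ⟨[], [], [], a, [], [], [], []⟩
        (2 + 1 + 1) := Big.loop1 (l := []) rfl hB (Big.loopE rfl)
    exact ⟨_, le_rfl, h⟩
  | cons x l ih =>
    intro a
    have e : (x :: l).reverse ++ a = l.reverse ++ x :: a := by simp
    rw [e]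
    have hser : ser (Enc.enc (x :: l)) = true :: (ser (Enc.enc x) ++ ser (Enc.enc l)) := rfl
    rw [hser]
    obtain ⟨t, ht, hb⟩ := ih (x :: a)
    cases x
    · have hB : Big writeB ⟨[], [], true :: false :: ser (Enc.enc l), a, [], [], [], []⟩
          ⟨[], [], ser (Enc.enc l), false :: a, [], [], [true], []⟩ (1 + 1 + 1 + 1) :=
        Big.pop1 (l := false :: ser (Enc.enc l)) rfl (Big.pop0 (l := ser (Enc.enc l)) rfl
          (Big.seq (t1 := 1) (t2 := 1) (Big.push _ _ _) (Big.push _ _ _)))
      have h : Big writeL ⟨[], [], true :: false :: ser (Enc.enc l), a, [], [], [true], []⟩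
          ⟨[], [], [], l.reverse ++ false :: a, [], [], [], []⟩ (4 + t + 1) :=
        Big.loop1 (l := []) rfl hB hb
      exact ⟨_, by simp only [List.length_cons]; omega, h⟩
    · have hp1 : Big popM ⟨[], [], false :: false :: ser (Enc.enc l), a, [], [], [], []⟩
          ⟨[], [], false :: ser (Enc.enc l), a, [], [], [], []⟩ 2 :=
        Big.pop0 (l := false :: ser (Enc.enc l)) rfl (Big.skip _)
      have hp2 : Big popM ⟨[], [], false :: ser (Enc.enc l), a, [], [], [], []⟩
          ⟨[], [], ser (Enc.enc l), a, [], [], [], []⟩ 2 :=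
        Big.pop0 (l := ser (Enc.enc l)) rfl (Big.skip _)
      have hB : Big writeB ⟨[], [], true :: true :: false :: false :: ser (Enc.enc l), a, [], [], [], []⟩
          ⟨[], [], ser (Enc.enc l), true :: a, [], [], [true], []⟩ (2 + (2 + (1 + 1)) + 1 + 1) :=
        Big.pop1 (l := true :: false :: false :: ser (Enc.enc l)) rfl
          (Big.pop1 (l := false :: false :: ser (Enc.enc l)) rfl
            (Big.seq hp1 (Big.seq hp2 (Big.seq (Big.push _ _ _) (Big.push _ _ _)))))
      have h : Big writeL ⟨[], [], true :: true :: false :: false :: ser (Enc.enc l), a, [], [], [true], []⟩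
          ⟨[], [], [], l.reverse ++ true :: a, [], [], [], []⟩ (8 + t + 1) :=
        Big.loop1 (l := []) rfl hB hb
      exact ⟨_, by simp only [List.length_cons]; omega, h⟩

lemma write2 (a : List Bool) : ∀ o : List Bool,
    Big (.loop .A (.push .O false) (.push .O true)) ⟨[], o, [], a, [], [], [], []⟩
      ⟨[], a.reverse ++ o, [], [], [], [], [], []⟩ (2 * a.length + 1) := by
  induction a with
  | nil => intro o; exact Big.loopE rfl
  | cons x l ih =>
    intro o
    have e : (x :: l).reverse ++ o = l.reverse ++ x :: o := by simp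
    rw [e]
    cases x
    · have h : Big (.loop .A (.push .O false) (.push .O true)) ⟨[], o, [], false :: l, [], [], [], []⟩
          ⟨[], l.reverse ++ false :: o, [], [], [], [], [], []⟩ (1 + (2 * l.length + 1) + 1) :=
        Big.loop0 (l := l) rfl (Big.push _ _ _) (ih (false :: o))
      exact Big.cast h (by simp only [List.length_cons]; omega)
    · have h : Big (.loop .A (.push .O false) (.push .O true)) ⟨[], o, [], true :: l, [], [], [], []⟩
          ⟨[], l.reverse ++ true :: o, [], [], [], [], [], []⟩ (1 + (2 * l.length + 1) + 1) :=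
        Big.loop1 (l := l) rfl (Big.push _ _ _) (ih (true :: o))
      exact Big.cast h (by simp only [List.length_cons]; omega)

lemma writeC_spec (l : List Bool) :
    ∃ t, t ≤ 11 * l.length + 6 ∧ Big writeC (st (ser (Enc.enc l))) (outMem l) t := by
  have h0 : Big (.push .F true) (st (ser (Enc.enc l))) ⟨[], [], ser (Enc.enc l), [], [], [], [true], []⟩ 1 :=
    Big.push _ _ _
  obtain ⟨t1, ht1, h1⟩ := write1 l []
  have h2 := write2 (l.reverse ++ []) []
  have hb := Big.seq h0 (Big.seq h1 h2)
  simp only [List.append_nil, List.reverse_reverse, List.length_reverse] at hb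
  exact ⟨_, by omega, hb⟩

lemma size_enc_bits (l : List Bool) : size (Enc.enc l) ≤ 4 * l.length + 1 := by
  induction l with
  | nil => simp
  | cons x l ih =>
    have : size (Enc.enc x) ≤ 3 := by cases x <;> decide
    simp only [enc_cons, size_cons, List.length_cons]
    omega

lemma length_le_size_enc (l : List Bool) : l.length ≤ size (Enc.enc l) := by
  have := size_enc_length_le l
  omega

/-- The main theorem of the library: `PT` functions on bit strings are polynomial-time computable. -/
theorem PT.polyTime {f : List Bool → List Bool} (h : PT f) : Crest.Complexity.PolyTime f := by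
  obtain ⟨c, p, hc⟩ := h
  refine polyTimeComputable (.seq readC (.seq c writeC)) f
    (C 7 * X + C 3 + p.comp (C 4 * X + C 1) + C 11 * p.comp (C 4 * X + C 1) + C 6) fun x => ?_
  obtain ⟨t1, ht1, h1⟩ := readC_spec x
  obtain ⟨h2, h3⟩ := hc x
  obtain ⟨t3, ht3, h3⟩ := h3 []
  obtain ⟨t4, ht4, h4⟩ := writeC_spec (f x)
  rw [List.append_nil, List.append_nil] at h3
  refine ⟨_, ?_, Big.seq h1 (Big.seq h3 h4)⟩
  have h5 := peval_mono p (size_enc_bits x)
  have h6 := length_le_size_enc (f x)
  simp only [eval_add, eval_mul, eval_C, eval_X, eval_comp]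
  have h7 : t3 ≤ p.eval (4 * x.length + 1) := ht3.trans h5
  have h8 : (f x).length ≤ p.eval (4 * x.length + 1) := (h6.trans h2).trans h5
  omega

end Crest.Agent.PolyLib
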