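/-
PolyLib, layer 4: the list library on top of `PT`.
-/
import Crest.Agent.PolyLib.Typed

set_option autoImplicit false

namespace Crest.Agent.PolyLib

open Polynomial Enc

section basics

variable {α β γ δ σ : Type} [Enc α] [Enc β] [Enc γ] [Enc δ] [Enc σ]

lemma PT.fst' {f : α → β × γ} (h : PT f) : PT (fun a => (f a).1) := PT.fst.comp h
lemma PT.snd' {f : α → β × γ} (h : PT f) : PT (fun a => (f a).2) := PT.snd.comp h

lemma size_enc_cons (x : β) (l : List β) : size (enc (x :: l)) = size (enc x) + size (enc l) + 1 := by
  rw [enc_cons, size_cons]
lemma size_enc_pair (a : α) (b : β) : size (enc (a, b)) = size (enc a) + size (enc b) + 1 := by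
  rw [enc_pair, size_cons]
@[simp] lemma size_enc_nil : size (enc ([] : List β)) = 1 := by
  rw [enc_nil, size_nil]

lemma size_enc_mem {b : β} {l : List β} (h : b ∈ l) : size (enc b) < size (enc l) := by
  induction l with
  | nil => simp at h
  | cons x l ih =>
    rw [size_enc_cons]
    rcases List.mem_cons.mp h with rfl | h
    · omega
    · have := ih h
      omega

lemma size_enc_take (l : List β) (k : ℕ) : size (enc (l.take k)) ≤ size (enc l) := by
  induction l generalizing k with
  | nil => simp
  | cons x l ih =>
    cases k with
    | zero =>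
      simp only [List.take_zero, size_enc_nil, size_enc_cons]
      omega
    | succ k =>
      have := ih k
      simp only [List.take_succ_cons, size_enc_cons]
      omega

lemma size_enc_append (l m : List β) : size (enc (l ++ m)) + 1 = size (enc l) + size (enc m) := by
  induction l with
  | nil => simp; omega
  | cons x l ih =>
    simp only [List.cons_append, size_enc_cons]
    omega

lemma size_enc_reverse (l : List β) : size (enc l.reverse) = size (enc l) := by
  induction l with
  | nil => simp
  | cons x l ih =>
    have := size_enc_append l.reverse [x]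
    simp only [List.reverse_cons, size_enc_cons, size_enc_nil] at *
    omega

lemma size_enc_tail (l : List β) : size (enc l.tail) ≤ size (enc l) := by
  cases l with
  | nil => simp
  | cons x l =>
    simp only [List.tail_cons, size_enc_cons]
    omega

lemma size_enc_pos (a : α) : 1 ≤ size (enc a) := size_pos _

lemma size_enc_map_le {f : β → γ} (l : List β) (B : ℕ) (h : ∀ b ∈ l, size (enc (f b)) ≤ B) :
    size (enc (l.map f)) ≤ l.length * (B + 1) + 1 := by
  induction l with
  | nil => simp
  | cons x l ih =>
    have h1 := h x (by simp)
    have h2 := ih fun b hb => h b (by simp [hb])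
    simp only [List.map_cons, size_enc_cons, List.length_cons, Nat.add_mul, Nat.one_mul]
    omega

lemma size_enc_sublist {l m : List β} (h : l.Sublist m) : size (enc l) ≤ size (enc m) := by
  induction h with
  | slnil => simp
  | cons a _ ih => rw [size_enc_cons]; omega
  | cons_cons a _ ih => simp only [size_enc_cons]; omega

lemma size_enc_suffix {l m : List β} (h : l <:+ m) : size (enc l) ≤ size (enc m) :=
  size_enc_sublist h.sublist

lemma size_enc_prefix {l m : List β} (h : l <+: m) : size (enc l) ≤ size (enc m) :=
  size_enc_sublist h.sublist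

lemma size_enc_infix {l m : List β} (h : l <:+: m) : size (enc l) ≤ size (enc m) :=
  size_enc_sublist h.sublist

end basics

section folds

variable {α β σ : Type} [Enc α] [Enc β] [Enc σ] [Inhabited β]

/-- `foldl`, curried, with a global bound on the accumulators: for all lists `r`, the fold over `r`
from the initial state has size polynomial in the size of the environment and of `r`. -/
theorem PT.foldl_glob {l : α → List β} {init : α → σ} {step : α → σ → β → σ}
    (hl : PT l) (hi : PT init) (hs : PT (fun t : α × σ × β => step t.1 t.2.1 t.2.2))
    (q : Polynomial ℕ)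
    (hq : ∀ a (r : List β), size (enc (r.foldl (step a) (init a))) ≤ q.eval (size (enc a) + size (enc r))) :
    PT (fun a => (l a).foldl (step a) (init a)) := by
  obtain ⟨cl, pl, hl'⟩ := _root_.id hl
  refine PT.foldl (step := fun t => step t.1 t.2.1 t.2.2) hl hi hs (q.comp (X + pl)) ?_
  intro a k _
  have h1 := hq a ((l a).take k)
  refine h1.trans ?_
  simp only [eval_comp, eval_add, eval_X]
  apply peval_mono
  have h2 := size_enc_take (l a) k
  have h3 := (hl' a).1
  omega

/-- `foldl`, curried, with an additive bound on the growth of the accumulators. -/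
theorem PT.foldl_add {l : α → List β} {init : α → σ} {step : α → σ → β → σ}
    (hl : PT l) (hi : PT init) (hs : PT (fun t : α × σ × β => step t.1 t.2.1 t.2.2))
    (q : Polynomial ℕ)
    (hq : ∀ a s b, b ∈ l a → size (enc (step a s b)) ≤ size (enc s) + q.eval (size (enc a))) :
    PT (fun a => (l a).foldl (step a) (init a)) := by
  obtain ⟨cl, pl, hl'⟩ := _root_.id hl
  obtain ⟨ci, pi, hi'⟩ := _root_.id hi
  refine PT.foldl (step := fun t => step t.1 t.2.1 t.2.2) hl hi hs (pi + pl * q) ?_
  intro a k hk
  have key : ∀ (r : List β) (s : σ), (∀ b ∈ r, b ∈ l a) →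
      size (enc (r.foldl (step a) s)) ≤ size (enc s) + r.length * q.eval (size (enc a)) := by
    intro r
    induction r with
    | nil => intro s _; simp
    | cons x r ih =>
      intro s hr
      have h1 := ih (step a s x) fun b hb => hr b (by simp [hb])
      have h2 := hq a s x (hr x (by simp))
      simp only [List.foldl_cons, List.length_cons, Nat.add_mul, Nat.one_mul]
      omega
  have h1 := key ((l a).take k) (init a) fun b hb => List.mem_of_mem_take hb
  have h2 := (hi' a).1
  have h3 := (hl' a).1
  have h4 := size_enc_length_le (l a)
  simp only [eval_add, eval_mul]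
  have h5 : ((l a).take k).length ≤ pl.eval (size (enc a)) := by
    rw [List.length_take]
    omega
  have h6 := Nat.mul_le_mul_right (q.eval (size (enc a))) h5
  exact h1.trans (by omega)

/-- `foldl`, with a potential function bounding the size of the accumulators. -/
theorem PT.foldl_pot {l : α → List β} {init : α → σ} {step : α → σ → β → σ}
    (hl : PT l) (hi : PT init) (hs : PT (fun t : α × σ × β => step t.1 t.2.1 t.2.2))
    (Φ : α → σ → ℕ) (p0 q : Polynomial ℕ)
    (h1 : ∀ a s, size (enc s) ≤ Φ a s) (h2 : ∀ a, Φ a (init a) ≤ p0.eval (size (enc a)))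
    (h3 : ∀ a s b, b ∈ l a → Φ a (step a s b) ≤ Φ a s + q.eval (size (enc a))) :
    PT (fun a => (l a).foldl (step a) (init a)) := by
  obtain ⟨cl, pl, hl'⟩ := _root_.id hl
  refine PT.foldl (step := fun t => step t.1 t.2.1 t.2.2) hl hi hs (p0 + pl * q) ?_
  intro a k hk
  have key : ∀ (r : List β) (s : σ), (∀ b ∈ r, b ∈ l a) →
      Φ a (r.foldl (step a) s) ≤ Φ a s + r.length * q.eval (size (enc a)) := by
    intro r
    induction r with
    | nil => intro s _; simp
    | cons x r ih =>
      intro s hr
      have h1 := ih (step a s x) fun b hb => hr b (by simp [hb])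
      have h2 := h3 a s x (hr x (by simp))
      simp only [List.foldl_cons, List.length_cons, Nat.add_mul, Nat.one_mul]
      omega
  have h4 := key ((l a).take k) (init a) fun b hb => List.mem_of_mem_take hb
  have h5 := h2 a
  have h6 := (hl' a).1
  have h7 := size_enc_length_le (l a)
  simp only [eval_add, eval_mul]
  have h8 : ((l a).take k).length ≤ pl.eval (size (enc a)) := by
    rw [List.length_take]
    omega
  have h9 := Nat.mul_le_mul_right (q.eval (size (enc a))) h8
  exact (h1 _ _).trans (h4.trans (by omega))

/-- `foldl`, with an invariant implying a polynomial size bound. -/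
theorem PT.foldl_inv {l : α → List β} {init : α → σ} {step : α → σ → β → σ}
    (hl : PT l) (hi : PT init) (hs : PT (fun t : α × σ × β => step t.1 t.2.1 t.2.2))
    (q : Polynomial ℕ) (Inv : α → σ → Prop) (h0 : ∀ a, Inv a (init a))
    (h1 : ∀ a s b, b ∈ l a → Inv a s → Inv a (step a s b))
    (hq : ∀ a s, Inv a s → size (enc s) ≤ q.eval (size (enc a))) :
    PT (fun a => (l a).foldl (step a) (init a)) := by
  refine PT.foldl (step := fun t => step t.1 t.2.1 t.2.2) hl hi hs q ?_
  intro a k _
  apply hq
  have key : ∀ (r : List β) (s : σ), (∀ b ∈ r, b ∈ l a) → Inv a s → Inv a (r.foldl (step a) s) := by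
    intro r
    induction r with
    | nil => intro s _ hs; simpa using hs
    | cons x r ih =>
      intro s hr hs
      simp only [List.foldl_cons]
      exact ih _ (fun b hb => hr b (by simp [hb])) (h1 a s x (hr x (by simp)) hs)
  exact key _ _ (fun b hb => List.mem_of_mem_take hb) (h0 a)

end folds

section lists

variable {α β γ δ σ : Type} [Enc α] [Enc β] [Enc γ] [Enc δ] [Enc σ]

/-- Reversal. -/
lemma PT.reverse₀ [Inhabited β] : PT (fun l : List β => l.reverse) := by
  have h : PT (fun l : List β => l.foldl (fun s b => b :: s) []) := by
    refine PT.foldl_add (step := fun _ s b => b :: s) PT.id (PT.const []) ?_ (X) ?_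
    · exact PT.cons (PT.snd.comp PT.snd) (PT.fst.comp PT.snd)
    · intro a s b hb
      have := size_enc_mem hb
      simp only [size_enc_cons, eval_X]
      omega
  refine h.congr fun l => ?_
  have key : ∀ (r : List β) (s : List β), r.foldl (fun s b => b :: s) s = r.reverse ++ s := by
    intro r
    induction r with
    | nil => simp
    | cons x r ih => intro s; simp [ih]
  simp [key l []]

lemma PT.reverse [Inhabited β] {f : α → List β} (h : PT f) : PT (fun a => (f a).reverse) :=
  PT.reverse₀.comp h

/-- `foldr` with a global bound. -/
theorem PT.foldr_glob [Inhabited β] {l : α → List β} {init : α → σ} {step : α → β → σ → σ}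
    (hl : PT l) (hi : PT init) (hs : PT (fun t : α × β × σ => step t.1 t.2.1 t.2.2))
    (q : Polynomial ℕ)
    (hq : ∀ a (r : List β), size (enc (r.foldr (step a) (init a))) ≤ q.eval (size (enc a) + size (enc r))) :
    PT (fun a => (l a).foldr (step a) (init a)) := by
  have h : PT (fun a => (l a).reverse.foldl (fun s b => step a b s) (init a)) := by
    refine PT.foldl_glob hl.reverse hi ?_ q ?_
    · exact hs.comp (PT.pair PT.fst (PT.pair (PT.snd.comp PT.snd) (PT.fst.comp PT.snd)))
    · intro a r
      have := hq a r.reverse
      rwa [List.foldr_reverse, size_enc_reverse] at this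
  refine h.congr fun a => ?_
  rw [List.foldl_reverse]

/-- Concatenation. -/
lemma PT.append₀ [Inhabited β] : PT (fun p : List β × List β => p.1 ++ p.2) := by
  have h : PT (fun p : List β × List β => p.1.reverse.foldl (fun s b => b :: s) p.2) := by
    refine PT.foldl_add (step := fun _ s b => b :: s) (PT.reverse PT.fst) PT.snd ?_ (X) ?_
    · exact PT.cons (PT.snd.comp PT.snd) (PT.fst.comp PT.snd)
    · rintro ⟨a1, a2⟩ s b hb
      have h1 : size (enc b) < size (enc a1) := by
        have := size_enc_mem hb
        rwa [size_enc_reverse] at this
      have h2 := size_enc_pair a1 a2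
      simp only [size_enc_cons, eval_X]
      omega
  refine h.congr fun p => ?_
  have key : ∀ (r : List β) (s : List β), r.foldl (fun s b => b :: s) s = r.reverse ++ s := by
    intro r
    induction r with
    | nil => simp
    | cons x r ih => intro s; simp [ih]
  simp [key]

lemma PT.append [Inhabited β] {f g : α → List β} (hf : PT f) (hg : PT g) :
    PT (fun a => f a ++ g a) :=
  PT.append₀.comp (hf.pair hg)

/-- Flattening. -/
lemma PT.flatten₀ [Inhabited β] : PT (fun l : List (List β) => l.flatten) := by
  have h : PT (fun l : List (List β) => l.reverse.foldl (fun s b => b ++ s) []) := by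
    refine PT.foldl_add (step := fun _ s b => b ++ s) (PT.reverse PT.id) (PT.const []) ?_ (X) ?_
    · exact PT.append (PT.snd.comp PT.snd) (PT.fst.comp PT.snd)
    · intro a s b hb
      have h1 := size_enc_mem hb
      rw [size_enc_reverse] at h1
      have h2 := size_enc_append b s
      simp only [eval_X]
      omega
  refine h.congr fun l => ?_
  rw [List.foldl_reverse]
  induction l with
  | nil => rfl
  | cons x l ih => simp [ih]

lemma PT.flatten [Inhabited β] {f : α → List (List β)} (h : PT f) : PT (fun a => (f a).flatten) :=
  PT.flatten₀.comp h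

/-- Map with an environment. -/
theorem PT.map [Inhabited β] [Inhabited γ] {l : α → List β} {f : α → β → γ} (hl : PT l)
    (hf : PT (fun p : α × β => f p.1 p.2)) : PT (fun a => (l a).map (f a)) := by
  have h : PT (fun a => (l a).foldl (fun s b => f a b :: s) []) := by
    obtain ⟨_, pf, hf'⟩ := _root_.id hf
    obtain ⟨_, pl, hl'⟩ := _root_.id hl
    refine PT.foldl_add hl (PT.const []) ?_ (pf.comp (X + pl + C 1) + C 1) ?_
    · exact PT.cons (hf.comp (PT.pair PT.fst (PT.snd.comp PT.snd))) (PT.fst.comp PT.snd)
    · intro a s b hb
      have h1 : size (enc (f a b)) ≤ pf.eval (size (enc (a, b))) := (hf' (a, b)).1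
      have h2 := size_enc_mem hb
      have h3 := (hl' a).1
      have h4 := size_enc_pair a b
      have h5 : pf.eval (size (enc (a, b))) ≤ pf.eval (size (enc a) + pl.eval (size (enc a)) + 1) :=
        peval_mono pf (by omega)
      simp only [size_enc_cons, eval_add, eval_comp, eval_X, eval_C]
      omega
  refine (PT.reverse h).congr fun a => ?_
  have key : ∀ (r : List β) (s : List γ),
      r.foldl (fun s b => f a b :: s) s = (r.map (f a)).reverse ++ s := by
    intro r
    induction r with
    | nil => simp
    | cons x r ih => intro s; simp [ih]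
  simp [key]

lemma PT.not {f : α → Bool} (h : PT f) : PT (fun a => !f a) :=
  (PT.ite h (PT.const false) (PT.const true)).congr fun a => by cases f a <;> rfl

lemma PT.and {f g : α → Bool} (hf : PT f) (hg : PT g) : PT (fun a => f a && g a) :=
  (PT.ite hf hg (PT.const false)).congr fun a => by cases f a <;> simp

lemma PT.or {f g : α → Bool} (hf : PT f) (hg : PT g) : PT (fun a => f a || g a) :=
  (PT.ite hf (PT.const true) hg).congr fun a => by cases f a <;> simp

/-- Conditionals on a decidable proposition. -/
lemma PT.ite' {p : α → Prop} [DecidablePred p] {f g : α → β}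
    (hb : PT (fun a => decide (p a))) (hf : PT f) (hg : PT g) :
    PT (fun a => if p a then f a else g a) :=
  (PT.ite hb hf hg).congr fun a => by by_cases h : p a <;> simp [h]

lemma PT.filter [Inhabited β] {l : α → List β} {p : α → β → Bool} (hl : PT l)
    (hp : PT (fun t : α × β => p t.1 t.2)) : PT (fun a => (l a).filter (p a)) := by
  have h : PT (fun a => ((l a).map (fun b => if p a b then [b] else [])).flatten) := by
    refine PT.flatten (PT.map hl ?_)
    refine PT.ite hp (PT.cons PT.snd (PT.const [])) (PT.const [])
  refine h.congr fun a => ?_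
  induction l a with
  | nil => rfl
  | cons x r ih =>
    by_cases hx : p a x <;> simp [hx, ih]

lemma PT.flatMap [Inhabited β] [Inhabited γ] {l : α → List β} {f : α → β → List γ} (hl : PT l)
    (hf : PT (fun t : α × β => f t.1 t.2)) : PT (fun a => (l a).flatMap (f a)) := by
  have h : PT (fun a => ((l a).map (f a)).flatten) := PT.flatten (PT.map hl hf)
  refine h.congr fun a => ?_
  rw [List.flatMap_def]

/-- `any`. -/
lemma PT.any [Inhabited β] {l : α → List β} {p : α → β → Bool} (hl : PT l)
    (hp : PT (fun t : α × β => p t.1 t.2)) : PT (fun a => (l a).any (p a)) := by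
  have h : PT (fun a => !(((l a).filter (p a)).isEmpty)) := PT.not (PT.isEmpty.comp (PT.filter hl hp))
  refine h.congr fun a => ?_
  induction l a with
  | nil => rfl
  | cons x r ih =>
    by_cases hx : p a x <;> simp_all

/-- `y.drop x.length`. -/
lemma PT.dropLen [Inhabited γ] {f : α → List γ} {g : α → List β} (hf : PT f) (hg : PT g) :
    PT (fun a => (g a).drop (f a).length) := by
  have h : PT (fun a => (f a).foldl (fun s _ => s.tail) (g a)) := by
    refine PT.foldl_add (step := fun _ s _ => List.tail s) hf hg ?_ 0 ?_
    · exact PT.tail.comp (PT.fst.comp PT.snd)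
    · intro a s b _
      have := size_enc_tail s
      simp only [eval_zero]
      omega
  refine h.congr fun a => ?_
  have key : ∀ (r : List γ) (s : List β), r.foldl (fun s _ => s.tail) s = s.drop r.length := by
    intro r
    induction r with
    | nil => simp
    | cons x r ih =>
      intro s
      simp only [List.foldl_cons, ih, List.length_cons]
      rw [List.drop_tail, Nat.add_comm]
  exact key _ _

/-- `x.length ≤ y.length` is decided in polynomial time (by dropping). -/
lemma PT.lengthLe [Inhabited γ] {f : α → List β} {g : α → List γ} (hf : PT f) (hg : PT g) :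
    PT (fun a => decide ((f a).length ≤ (g a).length)) := by
  have h : PT (fun a => ((f a).drop (g a).length).isEmpty) := PT.isEmpty.comp (PT.dropLen hg hf)
  refine h.congr fun a => ?_
  by_cases hh : (f a).length ≤ (g a).length
  · simp [hh]
  · simp only [hh, decide_false]
    have : ¬ ((f a).drop (g a).length = []) := by
      simp only [List.drop_eq_nil_iff]
      exact hh
    simpa using this

lemma PT.lengthLt [Inhabited β] [Inhabited γ] {f : α → List β} {g : α → List γ} (hf : PT f) (hg : PT g) :
    PT (fun a => decide ((f a).length < (g a).length)) := by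
  have h : PT (fun a => !(decide ((g a).length ≤ (f a).length))) := PT.not (PT.lengthLe hg hf)
  refine h.congr fun a => ?_
  by_cases hh : (f a).length < (g a).length
  · simp [hh]
  · simp [hh, Nat.le_of_not_lt hh]

/-- Equality tests in polynomial time. -/
class PTEq (β : Type) [Enc β] [DecidableEq β] : Prop where
  pt : PT (fun p : β × β => decide (p.1 = p.2))

lemma PT.decEq [DecidableEq β] [PTEq β] {f g : α → β} (hf : PT f) (hg : PT g) :
    PT (fun a => decide (f a = g a)) :=
  PTEq.pt.comp (hf.pair hg)

instance : PTEq Bool where
  pt := by
    have h : PT (fun p : Bool × Bool => if p.1 then p.2 else !p.2) :=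
      PT.ite PT.fst PT.snd (PT.not PT.snd)
    refine h.congr fun p => ?_
    rcases p with ⟨_ | _, _ | _⟩ <;> rfl

section prefixes

variable [DecidableEq β] [Inhabited β]

/-- The step of the prefix test. -/
def prefStep (s : List β × Bool) (x : β) : List β × Bool :=
  (s.1.tail, s.2 && !s.1.isEmpty && decide (s.1.headD default = x))

omit [Enc β] in
lemma prefStep_foldl (a : List β) : ∀ (b : List β) (ok : Bool),
    a.foldl prefStep (b, ok) = (b.drop a.length, ok && decide (a <+: b)) := by
  induction a with
  | nil => intro b ok; simp
  | cons x a ih =>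
    intro b ok
    cases b with
    | nil =>
      simp [prefStep, ih]
    | cons y b =>
      simp only [List.foldl_cons, prefStep, List.tail_cons, List.isEmpty_cons, Bool.not_false,
        Bool.and_true, List.headD_cons, ih, List.length_cons, List.drop_succ_cons]
      congr 1
      by_cases h1 : y = x
      · subst h1
        simp
      · have : ¬ (x = y) := fun h => h1 h.symm
        simp [h1, this]

variable [PTEq β]

lemma PT.prefFold {f g : α → List β} (hf : PT f) (hg : PT g) :
    PT (fun a => (f a).foldl prefStep (g a, true)) := by
  refine PT.foldl_add (step := fun _ s b => prefStep s b) hf (PT.pair hg (PT.const true)) ?_ (C 3) ?_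
  · unfold prefStep
    refine PT.pair (PT.tail.comp (PT.fst.comp (PT.fst.comp PT.snd))) ?_
    refine PT.and (PT.and (PT.snd.comp (PT.fst.comp PT.snd))
      (PT.not (PT.isEmpty.comp (PT.fst.comp (PT.fst.comp PT.snd))))) ?_
    exact PT.decEq ((PT.headD default).comp (PT.fst.comp (PT.fst.comp PT.snd))) (PT.snd.comp PT.snd)
  · intro a s b _
    rcases s with ⟨r, ok⟩
    have h1 := size_enc_tail r
    have h2 : ∀ c : Bool, size (enc c) ≤ 3 := by intro c; cases c <;> decide
    have h3 := h2 ok
    have h4 := h2 (ok && !r.isEmpty && decide (r.headD default = b))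
    have h5 := size_pos (enc ok)
    simp only [prefStep, size_enc_pair, eval_C]
    omega

/-- Prefix test. -/
lemma PT.isPrefix {f g : α → List β} (hf : PT f) (hg : PT g) :
    PT (fun a => decide (f a <+: g a)) := by
  refine (PT.snd.comp (PT.prefFold hf hg)).congr fun a => ?_
  rw [prefStep_foldl]
  simp

instance : PTEq (List β) where
  pt := by
    have h : PT (fun p : List β × List β =>
        (p.1.foldl prefStep (p.2, true)).2 && (p.1.foldl prefStep (p.2, true)).1.isEmpty) :=
      PT.and (PT.snd.comp (PT.prefFold PT.fst PT.snd))
        (PT.isEmpty.comp (PT.fst.comp (PT.prefFold PT.fst PT.snd)))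
    refine h.congr fun p => ?_
    rcases p with ⟨a, b⟩
    simp only [prefStep_foldl, Bool.true_and]
    by_cases hh : a = b
    · subst hh
      simp
    · simp only [hh, decide_false]
      by_cases h1 : a <+: b
      · have h2 : ¬ (b.drop a.length = []) := by
          intro h3
          have h4 : a.length = b.length := by
            have h5 := h1.length_le
            have h6 := List.drop_eq_nil_iff.mp h3
            omega
          exact hh (h1.eq_of_length h4)
        simp [h1, h2]
      · simp [h1]

end prefixes

/-- Elements of a product. -/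
lemma PT.product [Inhabited β] [Inhabited γ] {f : α → List β} {g : α → List γ} (hf : PT f) (hg : PT g) :
    PT (fun a => (f a).flatMap fun x => (g a).map fun y => (x, y)) := by
  refine PT.flatMap (f := fun a x => (g a).map fun y => (x, y)) hf ?_
  refine PT.map (f := fun (t : α × β) (y : γ) => (t.2, y)) (hg.comp PT.fst) ?_
  exact PT.pair (PT.snd.comp PT.fst) PT.snd

end lists

end Crest.Agent.PolyLib
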