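/-
PolyLib, layer 5: parsing and printing the self-delimiting codes of `Crest.Enc` in polynomial time.
-/
import Crest.Agent.PolyLib.Lists
import Crest.Prelude.Def_BitEnc

set_option autoImplicit false

namespace Crest.Agent.PolyLib

open Polynomial Crest.Agent.PolyLib.Enc Crest.Enc

/-! ### Binary numerals: successor and predecessor -/

/-- The value of a little-endian bit list. -/
def bval : List Bool → ℕ
  | [] => 0
  | b :: r => (if b then 1 else 0) + 2 * bval r

lemma bval_bits (n : ℕ) : bval n.bits = n := by
  induction n using Nat.binaryRec' with
  | zero => simp [bval]
  | bit b n hb ih =>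
    rw [Nat.bits_append_bit n b hb, bval, ih]
    cases b <;> simp [Nat.bit] <;> omega

lemma bits_injective : Function.Injective Nat.bits := fun a b h => by
  rw [← bval_bits a, ← bval_bits b, h]

/-- Binary predecessor. -/
def bdec : List Bool → List Bool
  | [] => []
  | b :: r => if b then false :: r else true :: bdec r

lemma bval_bdec {l : List Bool} (h : 0 < bval l) : bval (bdec l) + 1 = bval l := by
  induction l with
  | nil => simp [bval] at h
  | cons b r ih =>
    cases b with
    | true => simp [bdec, bval]; omega
    | false =>
      simp only [bval, Bool.false_eq_true, if_false, Nat.zero_add] at h ⊢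
      have h1 : 0 < bval r := by omega
      have := ih h1
      simp only [bdec, Bool.false_eq_true, if_false, bval, if_true]
      omega

lemma length_bdec (l : List Bool) : (bdec l).length = l.length := by
  induction l with
  | nil => rfl
  | cons b r ih => cases b <;> simp [bdec, ih]

/-- The zero test on bit lists. -/
def bzero (l : List Bool) : Bool := !l.any id

lemma bzero_iff (l : List Bool) : bzero l = true ↔ bval l = 0 := by
  induction l with
  | nil => simp [bzero, bval]
  | cons b r ih =>
    simp only [bzero, List.any_cons, id, Bool.not_or, Bool.and_eq_true, Bool.not_eq_true'] at *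
    cases b <;> simp [bval, ih]

lemma pt_bzero {α : Type} [Enc α] {f : α → List Bool} (hf : PT f) : PT (fun a => bzero (f a)) :=
  PT.not (PT.any (p := fun _ b => id b) hf PT.snd)

/-- Paramorphic form of the predecessor. -/
def decStep (b : Bool) (s : List Bool × List Bool) : List Bool × List Bool :=
  (b :: s.1, if b then false :: s.1 else true :: s.2)

lemma decStep_foldr (l : List Bool) : l.foldr decStep ([], []) = (l, bdec l) := by
  induction l with
  | nil => rfl
  | cons b r ih => simp [ih, decStep, bdec]

lemma size_enc_le_length (l : List Bool) : size (enc l) ≤ 4 * l.length + 1 := size_enc_bits l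

lemma pt_bdec {α : Type} [Enc α] {f : α → List Bool} (hf : PT f) : PT (fun a => bdec (f a)) := by
  have h : PT (fun a => (f a).foldr decStep ([], [])) := by
    refine PT.foldr_glob (init := fun _ => ([], [])) (step := fun _ b s => decStep b s) hf
      (PT.const _) ?_ (C 12 * X + C 3) ?_
    · unfold decStep
      refine PT.pair (PT.cons (PT.fst' PT.snd) (PT.fst' (PT.snd' PT.snd))) ?_
      exact PT.ite (PT.fst' PT.snd) (PT.cons (PT.const _) (PT.fst' (PT.snd' PT.snd)))
        (PT.cons (PT.const _) (PT.snd' (PT.snd' PT.snd)))
    · intro a r
      rw [decStep_foldr, size_enc_pair]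
      have h1 := size_enc_le_length (bdec r)
      have h2 := length_le_size_enc r
      rw [length_bdec] at h1
      simp only [eval_add, eval_mul, eval_C, eval_X]
      omega
  refine (PT.snd' h).congr fun a => ?_
  rw [decStep_foldr]

/-- Binary successor. -/
def binc : List Bool → List Bool
  | [] => [true]
  | b :: r => if b then false :: binc r else true :: r

lemma binc_bits (n : ℕ) : binc n.bits = (n + 1).bits := by
  induction n using Nat.binaryRec' with
  | zero => simp [binc]
  | bit b n hb ih =>
    rw [Nat.bits_append_bit n b hb]
    cases b with
    | true =>
      have h1 : Nat.bit true n + 1 = Nat.bit false (n + 1) := by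
        simp [Nat.bit]; omega
      rw [h1, Nat.bits_append_bit (n + 1) false (by omega)]
      simp [binc, ih]
    | false =>
      have h1 : Nat.bit false n + 1 = Nat.bit true n := by
        simp [Nat.bit]
      rw [h1, Nat.bits_append_bit n true (by simp)]
      simp [binc]

lemma length_binc_le (l : List Bool) : (binc l).length ≤ l.length + 1 := by
  induction l with
  | nil => simp [binc]
  | cons b r ih => cases b <;> simp [binc] <;> omega

/-- Paramorphic form of the successor. -/
def incStep (b : Bool) (s : List Bool × List Bool) : List Bool × List Bool :=
  (b :: s.1, if b then false :: s.2 else true :: s.1)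

lemma incStep_foldr (l : List Bool) : l.foldr incStep ([], [true]) = (l, binc l) := by
  induction l with
  | nil => rfl
  | cons b r ih => simp [ih, incStep, binc]

lemma pt_binc {α : Type} [Enc α] {f : α → List Bool} (hf : PT f) : PT (fun a => binc (f a)) := by
  have h : PT (fun a => (f a).foldr incStep ([], [true])) := by
    refine PT.foldr_glob (init := fun _ => ([], [true])) (step := fun _ b s => incStep b s) hf
      (PT.const _) ?_ (C 12 * X + C 7) ?_
    · unfold incStep
      refine PT.pair (PT.cons (PT.fst' PT.snd) (PT.fst' (PT.snd' PT.snd))) ?_
      exact PT.ite (PT.fst' PT.snd) (PT.cons (PT.const _) (PT.snd' (PT.snd' PT.snd)))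
        (PT.cons (PT.const _) (PT.fst' (PT.snd' PT.snd)))
    · intro a r
      rw [incStep_foldr, size_enc_pair]
      have h1 := size_enc_le_length (binc r)
      have h2 := length_le_size_enc r
      have h3 := length_binc_le r
      simp only [eval_add, eval_mul, eval_C, eval_X]
      omega
  refine (PT.snd' h).congr fun a => ?_
  rw [incStep_foldr]

lemma length_bits_le (n : ℕ) : n.bits.length ≤ n := by
  induction n with
  | zero => simp
  | succ n ih =>
    rw [← binc_bits]
    have := length_binc_le n.bits
    omega

/-- The binary numeral of the length of a list. -/
lemma pt_lengthBits {α β : Type} [Enc α] [Enc β] [Inhabited β] {f : α → List β} (hf : PT f) :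
    PT (fun a => (f a).length.bits) := by
  have key : ∀ r : List β, r.foldl (fun s _ => binc s) ([] : List Bool) = r.length.bits := by
    intro r
    induction r using List.reverseRecOn with
    | nil => simp
    | append_singleton r x ih =>
      simp [List.foldl_append, ih, binc_bits]
  have h : PT (fun a => (f a).foldl (fun s _ => binc s) ([] : List Bool)) := by
    refine PT.foldl_glob (init := fun _ => []) (step := fun _ s _ => binc s) hf (PT.const _) ?_
      (C 4 * X + C 1) ?_
    · exact pt_binc (PT.fst' PT.snd)
    · intro a r
      rw [key]
      have h1 := size_enc_le_length r.length.bits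
      have h2 := length_bits_le r.length
      have h3 := size_enc_length_le r
      simp only [eval_add, eval_mul, eval_C, eval_X]
      omega
  exact h.congr fun a => key _

/-! ### Printing -/

/-- The code of a numeral. -/
def codeBits (l : List Bool) : List Bool := (l.map fun b => [true, b]).flatten ++ [false, false]

lemma natCode_eq (n : ℕ) : natCode n = codeBits n.bits := rfl

lemma pt_codeBits {α : Type} [Enc α] {f : α → List Bool} (hf : PT f) :
    PT (fun a => codeBits (f a)) := by
  refine PT.append (PT.flatten (PT.map (f := fun _ b => [true, b]) hf ?_)) (PT.const _)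
  exact PT.cons (PT.const _) (PT.cons PT.snd (PT.const _))

/-- The printer for strings over binary numerals. -/
def printList (T : List (List Bool)) : List Bool :=
  codeBits T.length.bits ++ (T.map codeBits).flatten

lemma printList_map (T : List ℕ) : printList (T.map Nat.bits) = listCode T := by
  have : natCode = fun n => codeBits n.bits := rfl
  simp [printList, listCode, this, Function.comp_def]

lemma pt_printList {α : Type} [Enc α] {f : α → List (List Bool)} (hf : PT f) :
    PT (fun a => printList (f a)) := by
  refine PT.append (pt_codeBits (pt_lengthBits hf)) (PT.flatten (PT.map hf ?_))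
  exact pt_codeBits PT.snd

/-! ### Parsing: tokens -/

/-- State of the tokenizer: pending bit, current token, tokens so far. -/
abbrev TokS := (Bool × Bool) × List Bool × List (List Bool)

/-- The tokenizer: pairs `true, b` add a digit, pairs `false, _` end the token. -/
def tokStep (s : TokS) (b : Bool) : TokS :=
  if s.1.1 then
    if s.1.2 then ((false, false), s.2.1 ++ [b], s.2.2)
    else ((false, false), [], s.2.2 ++ [s.2.1])
  else ((true, b), s.2.1, s.2.2)

/-- The tokens of a bit string. -/
def tokens (x : List Bool) : List (List Bool) := (x.foldl tokStep ((false, false), [], [])).2.2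

lemma tok_digits (l cur : List Bool) (acc : List (List Bool)) (rest : List Bool) :
    ((l.map fun b => [true, b]).flatten ++ rest).foldl tokStep ((false, false), cur, acc) =
      rest.foldl tokStep ((false, false), cur ++ l, acc) := by
  induction l generalizing cur with
  | nil => simp
  | cons b l ih =>
    simp only [List.map_cons, List.flatten_cons, List.cons_append, List.nil_append, List.append_assoc,
      List.foldl_cons]
    have := ih (cur ++ [b])
    simpa [tokStep] using this

lemma tok_natCode (n : ℕ) (acc : List (List Bool)) (rest : List Bool) :
    (natCode n ++ rest).foldl tokStep ((false, false), [], acc) =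
      rest.foldl tokStep ((false, false), [], acc ++ [n.bits]) := by
  unfold natCode
  rw [List.append_assoc, tok_digits]
  simp [tokStep]

lemma tok_natCodes (l : List ℕ) (acc : List (List Bool)) (rest : List Bool) :
    ((l.map natCode).flatten ++ rest).foldl tokStep ((false, false), [], acc) =
      rest.foldl tokStep ((false, false), [], acc ++ l.map Nat.bits) := by
  induction l generalizing acc with
  | nil => simp
  | cons n l ih =>
    simp only [List.map_cons, List.flatten_cons, List.append_assoc]
    rw [tok_natCode, ih]
    simp

lemma tok_listCode (s : List ℕ) (acc : List (List Bool)) (rest : List Bool) :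
    (listCode s ++ rest).foldl tokStep ((false, false), [], acc) =
      rest.foldl tokStep ((false, false), [], acc ++ s.length.bits :: s.map Nat.bits) := by
  unfold listCode
  rw [List.append_assoc, tok_natCode, tok_natCodes]
  simp

/-- The tokens of the code of a family. -/
def famTokens (S : List (List ℕ)) : List (List Bool) :=
  (S.map fun s => s.length.bits :: s.map Nat.bits).flatten

lemma tok_family (S : List (List ℕ)) (acc : List (List Bool)) :
    (S.map listCode).flatten.foldl tokStep ((false, false), [], acc) =
      ((false, false), [], acc ++ famTokens S) := by
  induction S generalizing acc with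
  | nil => simp [famTokens]
  | cons s S ih =>
    simp only [List.map_cons, List.flatten_cons]
    rw [tok_listCode, ih]
    simp [famTokens]

lemma tokens_code (S : List (List ℕ)) :
    tokens (natCode S.length ++ (S.map listCode).flatten) = S.length.bits :: famTokens S := by
  unfold tokens
  rw [tok_natCode, tok_family]
  simp

lemma size_bool_le (c : Bool) : size (enc c) ≤ 3 := by cases c <;> decide

lemma pt_tokens {α : Type} [Enc α] {f : α → List Bool} (hf : PT f) : PT (fun a => tokens (f a)) := by
  refine PT.snd' (PT.snd' ?_)
  refine PT.foldl_add (init := fun _ => ((false, false), [], [])) (step := fun _ s b => tokStep s b)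
    hf (PT.const _) ?_ (C 20) ?_
  · unfold tokStep
    have h1 : PT (fun t : α × TokS × Bool => t.2.1) := PT.fst' PT.snd
    refine PT.ite (PT.fst' (PT.fst' h1)) ?_ ?_
    · refine PT.ite (PT.snd' (PT.fst' h1)) ?_ ?_
      · exact PT.pair (PT.const _) (PT.pair (PT.append (PT.fst' (PT.snd' h1))
          (PT.cons (PT.snd' PT.snd) (PT.const _))) (PT.snd' (PT.snd' h1)))
      · exact PT.pair (PT.const _) (PT.pair (PT.const _) (PT.append (PT.snd' (PT.snd' h1))
          (PT.cons (PT.fst' (PT.snd' h1)) (PT.const _))))
    · exact PT.pair (PT.pair (PT.const _) (PT.snd' PT.snd)) (PT.snd' h1)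
  · rintro a ⟨⟨p1, p2⟩, cur, acc⟩ b -
    have hb := size_bool_le b
    have hp1 := size_bool_le p1
    have hp2 := size_bool_le p2
    have hp3 := size_pos (enc p1)
    have hp4 := size_pos (enc p2)
    have h1 := size_enc_append cur [b]
    have h2 := size_enc_append acc [cur]
    have h3 : size (enc ([] : List Bool)) = 1 := by simp
    have h4 : size (enc ((false, false) : Bool × Bool)) = 3 := by decide
    have h4a : size (enc true) = 3 := by decide
    have h4b : size (enc false) = 1 := by decide
    have h5 : size (enc [b]) = size (enc b) + 2 := by simp [size_enc_cons]
    have h6 : size (enc [cur]) = size (enc cur) + 2 := by simp [size_enc_cons]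
    simp only [tokStep, eval_C]
    cases p1 <;> cases p2 <;> simp only [Bool.false_eq_true, if_true, if_false, size_enc_pair] <;>
      omega

/-! ### Parsing: strings -/

/-- State of the parser: digits still to be read (binary counter), current string, strings so far. -/
abbrev ParS := List Bool × List (List Bool) × List (List (List Bool))

/-- The parser. -/
def parStep (s : ParS) (t : List Bool) : ParS :=
  if s.1.isEmpty then
    if t.isEmpty then ([], [], s.2.2 ++ [[]]) else (t, [], s.2.2)
  else
    if bzero (bdec s.1) then ([], [], s.2.2 ++ [s.2.1 ++ [t]])
    else (bdec s.1, s.2.1 ++ [t], s.2.2)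

/-- The decoder. -/
def decode (x : List Bool) : List (List (List Bool)) :=
  ((tokens x).tail.foldl parStep ([], [], [])).2.2

lemma par_busy (u : List ℕ) (x : ℕ) (need : List Bool) (cur : List (List Bool))
    (acc : List (List (List Bool))) (rest : List (List Bool)) (h : bval need = u.length + 1) :
    ((x :: u).map Nat.bits ++ rest).foldl parStep (need, cur, acc) =
      rest.foldl parStep ([], [], acc ++ [cur ++ (x :: u).map Nat.bits]) := by
  induction u generalizing x need cur with
  | nil =>
    have h1 : need.isEmpty = false := by
      cases need with
      | nil => simp [bval] at h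
      | cons _ _ => rfl
    have h2 : bzero (bdec need) = true := by
      rw [bzero_iff]
      have := bval_bdec (l := need) (by omega)
      simp only [List.length_nil] at h
      omega
    simp [parStep, h1, h2]
  | cons y u ih =>
    have h1 : need.isEmpty = false := by
      cases need with
      | nil => simp [bval] at h
      | cons _ _ => rfl
    have h3 := bval_bdec (l := need) (by omega)
    have h2 : bzero (bdec need) = false := by
      cases hh : bzero (bdec need) with
      | false => rfl
      | true =>
        rw [bzero_iff] at hh
        simp only [List.length_cons] at h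
        omega
    have h4 := ih y (bdec need) (cur ++ [x.bits]) (by simp only [List.length_cons] at h; omega)
    simp only [List.map_cons, List.cons_append, List.foldl_cons, parStep, h1, h2, Bool.false_eq_true,
      if_false] at h4 ⊢
    rw [h4]
    simp

lemma par_string (s : List ℕ) (acc : List (List (List Bool))) (rest : List (List Bool)) :
    (s.length.bits :: (s.map Nat.bits ++ rest)).foldl parStep ([], [], acc) =
      rest.foldl parStep ([], [], acc ++ [s.map Nat.bits]) := by
  cases s with
  | nil =>
    simp [parStep]
  | cons x u =>
    have h1 : (x :: u).length.bits.isEmpty = false := by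
      cases hh : (x :: u).length.bits with
      | nil =>
        have := bval_bits (x :: u).length
        rw [hh] at this
        simp [bval] at this
      | cons _ _ => rfl
    have h2 := par_busy u x (x :: u).length.bits [] acc rest (by rw [bval_bits]; rfl)
    simp only [List.foldl_cons, parStep, List.isEmpty_nil, if_true, h1, Bool.false_eq_true, if_false]
    rw [h2]
    simp

lemma par_family (S : List (List ℕ)) (acc : List (List (List Bool))) :
    (famTokens S).foldl parStep ([], [], acc) =
      ([], [], acc ++ S.map (List.map Nat.bits)) := by
  induction S generalizing acc with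
  | nil => simp [famTokens]
  | cons s S ih =>
    have e : famTokens (s :: S) = s.length.bits :: (s.map Nat.bits ++ famTokens S) := by
      simp [famTokens]
    rw [e, par_string, ih]
    simp

/-- The decoder inverts the code of a family. -/
theorem decode_code (S : List (List ℕ)) :
    decode (natCode S.length ++ (S.map listCode).flatten) = S.map (List.map Nat.bits) := by
  unfold decode
  rw [tokens_code, List.tail_cons, par_family]
  simp

lemma pt_decode : PT decode := by
  refine PT.snd' (PT.snd' ?_)
  obtain ⟨_, pT, hT⟩ := pt_tokens (α := List Bool) PT.id
  refine PT.foldl_pot (l := fun x => (tokens x).tail) (init := fun _ => ([], [], []))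
    (step := fun _ s t => parStep s t) (PT.tail.comp (pt_tokens PT.id)) (PT.const _) ?_
    (fun _ s => 4 * s.1.length + 1 + size (enc s.2.1) + size (enc s.2.2) + 2)
    (C 10) (C 4 * pT + C 10) ?_ ?_ ?_
  · unfold parStep
    have h1 : PT (fun t : List Bool × ParS × List Bool => t.2.1) := PT.fst' PT.snd
    have h2 : PT (fun t : List Bool × ParS × List Bool => t.2.2) := PT.snd' PT.snd
    refine PT.ite (PT.isEmpty.comp (PT.fst' h1)) ?_ ?_
    · refine PT.ite (PT.isEmpty.comp h2) ?_ ?_
      · exact PT.pair (PT.const _) (PT.pair (PT.const _)
          (PT.append (PT.snd' (PT.snd' h1)) (PT.const _)))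
      · exact PT.pair h2 (PT.pair (PT.const _) (PT.snd' (PT.snd' h1)))
    · refine PT.ite (pt_bzero (pt_bdec (PT.fst' h1))) ?_ ?_
      · exact PT.pair (PT.const _) (PT.pair (PT.const _) (PT.append (PT.snd' (PT.snd' h1))
          (PT.cons (PT.append (PT.fst' (PT.snd' h1)) (PT.cons h2 (PT.const _))) (PT.const _))))
      · exact PT.pair (pt_bdec (PT.fst' h1)) (PT.pair (PT.append (PT.fst' (PT.snd' h1))
          (PT.cons h2 (PT.const _))) (PT.snd' (PT.snd' h1)))
  · rintro a ⟨need, cur, acc⟩
    have := size_enc_le_length need
    simp only [size_enc_pair]
    omega
  · intro a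
    simp only [size_enc_nil, List.length_nil, eval_C]
    omega
  · rintro a ⟨need, cur, acc⟩ t ht
    have h1 : size (enc t) ≤ pT.eval (size (enc a)) := by
      have h2 := size_enc_mem ht
      have h3 := size_enc_tail (tokens a)
      have h4 : size (enc (tokens a)) ≤ pT.eval (size (enc a)) := (hT a).1
      omega
    have h5 := length_le_size_enc t
    have h6 := size_enc_append acc [[]]
    have h7 := size_enc_append acc [cur ++ [t]]
    have h8 := size_enc_append cur [t]
    have h9 : size (enc ([t] : List (List Bool))) = size (enc t) + 2 := by simp [size_enc_cons]
    have h10 : size (enc ([cur ++ [t]] : List (List (List Bool)))) = size (enc (cur ++ [t])) + 2 := by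
      simp [size_enc_cons]
    have h11 : size (enc ([[]] : List (List (List Bool)))) = 3 := by simp [size_enc_cons]
    have h12 := size_pos (enc cur)
    have h13 := size_pos (enc acc)
    simp only [parStep, eval_add, eval_mul, eval_C]
    cases c1 : need.isEmpty <;> cases c2 : t.isEmpty <;> cases c3 : bzero (bdec need) <;>
      simp only [Bool.false_eq_true, if_true, if_false, size_enc_nil, List.length_nil, length_bdec] <;>
      omega

end Crest.Agent.PolyLib
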